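import Vale.Agent.P015.DefsG

/-! P015, module BLG: composite blocks (from CPG, DIV and the size bound). -/

namespace Vale.P015.BLG

open Finset

theorem thm (hC : StmtCPG) (hD : StmtDIV)
    (hS : ∀ L w : ℕ, 1 ≤ L → 1 ≤ w → ∀ J : ℕ, J = L * (2 * w + 1) →
      (∏ j ∈ Finset.range J, (((j + 1) * primorial (2 * J)) ^ 2 + 1)) ≤
        2 ^ (99 * L ^ 2 * w ^ 2)) : StmtBLG := by
  intro L w hL hw N hN
  obtain ⟨J, hJ⟩ : ∃ J : ℕ, J = L * (2 * w + 1) := ⟨_, rfl⟩
  set M := primorial (2 * J) with hM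
  have hM0 : 0 < M := primorial_pos _
  let k : ℕ → ℕ := fun j => (j + 1) * M
  let md : ℕ → ℕ := fun j => (k j) ^ 2 + 1
  let r : ℕ → ℕ := fun j =>
    (((k j : ℤ) * (((j / L : ℕ) : ℤ) - w) - ((j % L : ℕ) : ℤ)) % (md j : ℤ)).toNat
  have hmd : ∀ i ∈ Finset.range J, md i ≠ 0 := fun i _ => Nat.succ_ne_zero _
  have hpp : Set.Pairwise (Finset.range J : Set ℕ) (Function.onFun Nat.Coprime md) := by
    intro i hi j hj hij
    exact hC J i j (by simpa using hi) (by simpa using hj) hij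
  obtain ⟨k0, hk0⟩ := Nat.chineseRemainderOfFinset r md (Finset.range J) hmd hpp
  set P := ∏ j ∈ Finset.range J, md j with hP
  have hP0 : 0 < P := Finset.prod_pos fun i _ => Nat.succ_pos _
  have hPN : P ≤ N := (hS L w hL hw J hJ).trans hN
  set d : ℤ := ((k0 : ℤ) - N) % P with hd
  have hd0 : 0 ≤ d := Int.emod_nonneg _ (by exact_mod_cast hP0.ne')
  have hd1 : d < P := Int.emod_lt_of_pos _ (by exact_mod_cast hP0)
  have hda : ((N + d.toNat : ℕ) : ℤ) = N + d := by
    push_cast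
    rw [Int.toNat_of_nonneg hd0]
  have hdvd : (P : ℤ) ∣ ((N + d.toNat : ℕ) : ℤ) - k0 := by
    rw [hda]
    refine ⟨-(((k0 : ℤ) - N) / P), ?_⟩
    have := Int.emod_add_mul_ediv ((k0 : ℤ) - N) P
    rw [← hd] at this
    linarith
  refine ⟨N + d.toNat, by omega, ?_, ?_⟩
  · have : ((N + d.toNat : ℕ) : ℤ) < 2 * N := by
      rw [hda]
      have : (P : ℤ) ≤ N := by exact_mod_cast hPN
      linarith
    exact_mod_cast this
  · intro s t hs hsL ht
    obtain ⟨ht1, ht2⟩ := abs_le.mp ht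
    obtain ⟨q, hq⟩ := Int.eq_ofNat_of_zero_le (by linarith : 0 ≤ t + w)
    obtain ⟨s', rfl⟩ := Int.eq_ofNat_of_zero_le hs
    have hs' : s' < L := by exact_mod_cast hsL
    have hq' : q ≤ 2 * w := by
      have : (q : ℤ) ≤ 2 * w := by rw [← hq]; linarith
      exact_mod_cast this
    set j := L * q + s' with hj
    have hj1 : j / L = q := by
      rw [hj, Nat.mul_add_div (by omega), Nat.div_eq_of_lt hs', add_zero]
    have hj2 : j % L = s' := by
      rw [hj, Nat.mul_add_mod, Nat.mod_eq_of_lt hs']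
    have hjJ : j < J := by
      rw [hj, hJ]
      calc L * q + s' < L * q + L := by omega
        _ = L * (q + 1) := by ring
        _ ≤ L * (2 * w + 1) := Nat.mul_le_mul_left _ (by omega)
    have hmdP : md j ∣ P := Finset.dvd_prod_of_mem md (Finset.mem_range.mpr hjJ)
    have h1 : (md j : ℤ) ∣ ((N + d.toNat : ℕ) : ℤ) - k0 :=
      (Int.natCast_dvd_natCast.mpr hmdP).trans hdvd
    have h2 : (md j : ℤ) ∣ (k0 : ℤ) - r j := by
      have := hk0 j (Finset.mem_range.mpr hjJ)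
      exact (Nat.modEq_iff_dvd.mp this.symm)
    have hmpos : (0 : ℤ) < md j := by exact_mod_cast Nat.succ_pos _
    have h3 : (md j : ℤ) ∣ (r j : ℤ) - ((k j : ℤ) * t - s') := by
      have e : (r j : ℤ) = ((k j : ℤ) * t - s') % (md j : ℤ) := by
        change ((((k j : ℤ) * (((j / L : ℕ) : ℤ) - w) - ((j % L : ℕ) : ℤ)) %
          (md j : ℤ)).toNat : ℤ) = _
        rw [Int.toNat_of_nonneg (Int.emod_nonneg _ hmpos.ne'), hj1, hj2]
        have e3 : (q : ℤ) - w = t := by
          have : (q : ℤ) = t + w := hq.symm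
          linarith
        rw [e3]
      rw [e]
      refine ⟨-(((k j : ℤ) * t - s') / md j), ?_⟩
      have := Int.emod_add_mul_ediv ((k j : ℤ) * t - s') (md j)
      linarith
    have h4 : (md j : ℤ) ∣ (((N + d.toNat : ℕ) : ℤ) + s') - (k j : ℤ) * t := by
      have h5 := dvd_add (dvd_add h1 h2) h3
      have e4 : ((N + d.toNat : ℕ) : ℤ) - k0 + ((k0 : ℤ) - r j) + ((r j : ℤ) -
          ((k j : ℤ) * t - s')) = ((N + d.toNat : ℕ) : ℤ) + s' - (k j : ℤ) * t := by ring
      rwa [e4] at h5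
    have hmd' : (md j : ℤ) = (k j : ℤ) ^ 2 + 1 := by
      change (((k j) ^ 2 + 1 : ℕ) : ℤ) = _
      push_cast
      ring
    have hkpos : 0 < k j := Nat.mul_pos (Nat.succ_pos _) hM0
    refine hD (k j) _ t hkpos (by rwa [← hmd']) ?_
    have hle : md j ≤ N := (Nat.le_of_dvd hP0 hmdP).trans hPN
    have h5 : (k j : ℤ) ^ 2 + 1 ≤ ((N + d.toNat : ℕ) : ℤ) + s' := by
      rw [← hmd']
      have : (md j : ℤ) ≤ N := by exact_mod_cast hle
      push_cast
      have := Int.natCast_nonneg d.toNat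
      have := Int.natCast_nonneg s'
      linarith
    have h6 : (1 : ℤ) ≤ (k j : ℤ) := by exact_mod_cast hkpos
    nlinarith [sq_nonneg t, sq_nonneg ((k j : ℤ))]

end Vale.P015.BLG
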