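import Mathlib

/-!
# P015: prime-free disks centred on lines of irrational slope
-/

namespace Vale.Agent.P015
open Finset

/-- a Gaussian prime whose two coordinates are divisible by the prime `p` has norm `p ^ 2` -/
theorem norm_of_dvd {z : GaussianInt} (hz : Irreducible z) {p : ℕ} (hp : p.Prime)
    (h1 : (p : ℤ) ∣ z.re) (h2 : (p : ℤ) ∣ z.im) : ‖(z : ℂ)‖ = p := by
  obtain ⟨w, hw⟩ := (Zsqrtd.intCast_dvd (p : ℤ) z).2 ⟨h1, h2⟩
  have hnorm : z.norm = (p : ℤ) * p * w.norm := by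
    rw [hw, Zsqrtd.norm_mul, Zsqrtd.norm_intCast]
  have hp2 := hp.two_le
  have hw1 : w.norm = 1 := by
    rcases hz.isUnit_or_isUnit hw with h | h
    · exfalso
      have h3 := (Zsqrtd.norm_eq_one_iff' (by norm_num) _).2 h
      rw [Zsqrtd.norm_intCast] at h3
      have h4 : (2 : ℤ) ≤ (p : ℤ) := by exact_mod_cast hp2
      nlinarith
    · exact (Zsqrtd.norm_eq_one_iff' (by norm_num) _).2 h
  rw [hw1, mul_one] at hnorm
  have h5 : Complex.normSq (z : ℂ) = (p : ℝ) * p := by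
    rw [← GaussianInt.intCast_real_norm, hnorm]
    push_cast
    ring
  rw [Complex.normSq_eq_norm_sq] at h5
  have h6 : (0 : ℝ) ≤ ‖(z : ℂ)‖ := norm_nonneg _
  have h7 : (0 : ℝ) ≤ (p : ℝ) := Nat.cast_nonneg p
  nlinarith [sq_nonneg (‖(z : ℂ)‖ - p), mul_nonneg h6 h7]

/-- the block: coordinates divisible by distinct primes -/
theorem block (N : ℕ) : ∃ m : ℕ, 1 ≤ m ∧ ∃ a b : ℤ, ∀ j l : ℕ, j ≤ N → l ≤ N →
    ∃ p : ℕ, p.Prime ∧ p ≤ m ∧ p ∣ m ∧ (p : ℤ) ∣ a + j ∧ (p : ℤ) ∣ b + l := by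
  classical
  set q : ℕ × ℕ → ℕ := fun x => Nat.nth Nat.Prime (x.1 * (N + 1) + x.2) with hq
  have hprime : ∀ x, (q x).Prime := fun x => Nat.prime_nth_prime _
  set t : Finset (ℕ × ℕ) := range (N + 1) ×ˢ range (N + 1) with ht
  have hinj : ∀ x ∈ t, ∀ y ∈ t, q x = q y → x = y := by
    intro x hx y hy hxy
    have h1 : x.1 * (N + 1) + x.2 = y.1 * (N + 1) + y.2 :=
      Nat.nth_injective Nat.infinite_setOf_prime hxy
    have hx2 : x.2 < N + 1 := mem_range.1 (mem_product.1 hx).2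
    have hy2 : y.2 < N + 1 := mem_range.1 (mem_product.1 hy).2
    have h2 : x.2 = y.2 := by
      have h3 := congrArg (· % (N + 1)) h1
      simp only [Nat.mul_add_mod_self_right] at h3
      rw [Nat.mod_eq_of_lt hx2, Nat.mod_eq_of_lt hy2] at h3
      exact h3
    have h4 : x.1 = y.1 := by
      rw [h2] at h1
      exact Nat.eq_of_mul_eq_mul_right (Nat.succ_pos N) (Nat.add_right_cancel h1)
    exact Prod.ext h4 h2
  have hcop : Set.Pairwise (t : Set (ℕ × ℕ)) (Function.onFun Nat.Coprime q) := by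
    intro x hx y hy hxy
    exact (Nat.coprime_primes (hprime x) (hprime y)).2 fun h => hxy (hinj x hx y hy h)
  obtain ⟨a, ha⟩ := Nat.chineseRemainderOfFinset (fun x => (q x - 1) * x.1) q t
    (fun x _ => (hprime x).ne_zero) hcop
  obtain ⟨b, hb⟩ := Nat.chineseRemainderOfFinset (fun x => (q x - 1) * x.2) q t
    (fun x _ => (hprime x).ne_zero) hcop
  refine ⟨∏ x ∈ t, q x, Nat.one_le_iff_ne_zero.2 (prod_ne_zero_iff.2 fun x _ =>
    (hprime x).ne_zero), a, b, fun j l hj hl => ?_⟩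
  have hmem : (j, l) ∈ t := mem_product.2 ⟨mem_range.2 (by omega), mem_range.2 (by omega)⟩
  have hdvd : q (j, l) ∣ ∏ x ∈ t, q x := dvd_prod_of_mem q hmem
  have key : ∀ (c d : ℕ), c ≡ (q (j, l) - 1) * d [MOD q (j, l)] → ((q (j, l) : ℕ) : ℤ) ∣ (c : ℤ) + d := by
    intro c d h
    have h1 : c + d ≡ (q (j, l) - 1) * d + d [MOD q (j, l)] := Nat.ModEq.add_right _ h
    have h2 : (q (j, l) - 1) * d + d = q (j, l) * d := by
      have h3 : q (j, l) = (q (j, l) - 1) + 1 := (Nat.sub_add_cancel (hprime (j, l)).one_lt.le).symm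
      calc (q (j, l) - 1) * d + d = ((q (j, l) - 1) + 1) * d := by ring
        _ = q (j, l) * d := by rw [← h3]
    rw [h2] at h1
    have h4 : q (j, l) ∣ c + d :=
      (Nat.modEq_zero_iff_dvd).1 (h1.trans ((Nat.modEq_zero_iff_dvd).2 (dvd_mul_right _ _)))
    exact_mod_cast h4
  exact ⟨q (j, l), hprime _, Nat.le_of_dvd (prod_pos fun x _ => (hprime x).pos) hdvd, hdvd,
    key a j (ha _ hmem), key b l (hb _ hmem)⟩

/-- inhomogeneous one-sided approximation -/
theorem approx {α : ℝ} (hα : Irrational α) (β K : ℝ) {ε : ℝ} (hε : 0 < ε) :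
    ∃ k l : ℤ, K ≤ k ∧ |k * α - l - β| ≤ ε := by
  obtain ⟨n, hn⟩ := exists_nat_gt (1 / ε)
  have hn0 : 0 < n := by
    have : (0 : ℝ) < n := lt_trans (by positivity) hn
    exact_mod_cast this
  obtain ⟨j, k0, hk0, -, hδ⟩ := Real.exists_int_int_abs_mul_sub_le α hn0
  set δ : ℝ := k0 * α - j with hδdef
  have hδε : |δ| ≤ ε := by
    refine hδ.trans ?_
    have h1 : (1 : ℝ) < n * ε := by
      rw [div_lt_iff₀ hε] at hn
      exact hn
    rw [div_le_iff₀ (by positivity)]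
    nlinarith
  have hδ0 : δ ≠ 0 := by
    intro h
    have h1 : Irrational ((k0 : ℝ) * α) := by
      exact hα.intCast_mul hk0.ne'
    exact h1.ne_int j (by linarith)
  set K' : ℝ := max K 0 with hK'
  -- an integer shift
  have hM : ∃ M : ℤ, K' ≤ (β + M) / δ := by
    rcases lt_or_gt_of_ne hδ0 with h | h
    · refine ⟨⌊K' * δ - β⌋, ?_⟩
      rw [le_div_iff_of_neg h]
      have := Int.floor_le (K' * δ - β)
      linarith
    · refine ⟨⌈K' * δ - β⌉, ?_⟩
      rw [le_div_iff₀ h]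
      have := Int.le_ceil (K' * δ - β)
      linarith
  obtain ⟨M, hM⟩ := hM
  set x : ℝ := β + M with hx
  set s : ℤ := ⌈x / δ⌉ with hs
  have hs1 : x / δ ≤ s := Int.le_ceil _
  have hs2 : (s : ℝ) < x / δ + 1 := Int.ceil_lt_add_one _
  have hsK : K' ≤ s := hM.trans hs1
  have hk1 : (1 : ℝ) ≤ k0 := by exact_mod_cast hk0
  refine ⟨s * k0, s * j + M, ?_, ?_⟩
  · push_cast
    have h1 : K ≤ K' := le_max_left _ _
    have h2 : 0 ≤ K' := le_max_right _ _
    nlinarith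
  · have h1 : ((s * k0 : ℤ) : ℝ) * α - ((s * j + M : ℤ) : ℝ) - β = s * δ - x := by
      rw [hδdef, hx]
      push_cast
      ring
    rw [h1]
    have h2 : (s : ℝ) * δ - x = (s - x / δ) * δ := by
      field_simp
    rw [h2, abs_mul]
    have h3 : |(s : ℝ) - x / δ| ≤ 1 := by
      rw [abs_le]
      constructor <;> linarith
    calc |(s : ℝ) - x / δ| * |δ| ≤ 1 * |δ| := mul_le_mul_of_nonneg_right h3 (abs_nonneg _)
      _ ≤ ε := by rw [one_mul]; exact hδε

end Vale.Agent.P015
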