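import Vale.Agent.P015.Defs
import Vale.Agent.P015.Basic

/-! P015: BOX. -/

namespace Vale.P015.BOX

theorem thm : StmtBOX := by
  intro R
  obtain ⟨m, hm, a, b, hblock⟩ := Vale.Agent.P015.block (2 * R)
  refine ⟨m, a + R, b + R, 2 * ((m : ℝ) + 2 * R) ^ 2, hm, ?_⟩
  intro x y hx hy hT s s' hs hs' hirr
  rw [abs_le] at hs hs'
  obtain ⟨j, hj⟩ := Int.eq_ofNat_of_zero_le (by linarith [hs.1] : (0 : ℤ) ≤ s + R)
  obtain ⟨l, hl⟩ := Int.eq_ofNat_of_zero_le (by linarith [hs'.1] : (0 : ℤ) ≤ s' + R)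
  obtain ⟨p, hp, hpm, hpd, h1, h2⟩ := hblock j l (by omega) (by omega)
  have hpd' : (p : ℤ) ∣ (m : ℤ) := by exact_mod_cast hpd
  have d1 : (p : ℤ) ∣ x + s := by
    have e : x + s = (x - (a + R)) + (a + j) := by
      rw [← hj]
      ring
    rw [e]
    exact dvd_add (hpd'.trans hx) h1
  have d2 : (p : ℤ) ∣ y + s' := by
    have e : y + s' = (y - (b + R)) + (b + l) := by
      rw [← hl]
      ring
    rw [e]
    exact dvd_add (hpd'.trans hy) h2
  have hn := Vale.Agent.P015.norm_of_dvd hirr hp d1 d2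
  have hsq : ((x : ℝ) + s) ^ 2 + ((y : ℝ) + s') ^ 2 = (p : ℝ) ^ 2 := by
    have h3 := Complex.normSq_eq_norm_sq
      (GaussianInt.toComplex (⟨x + s, y + s'⟩ : GaussianInt))
    rw [hn, Complex.normSq_apply] at h3
    rw [GaussianInt.re_toComplex, GaussianInt.im_toComplex] at h3
    push_cast at h3
    linarith
  have hpm' : (p : ℝ) ≤ m := by exact_mod_cast hpm
  have hp0 : (0 : ℝ) ≤ p := Nat.cast_nonneg p
  have hR0 : (0 : ℝ) ≤ R := Nat.cast_nonneg R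
  have hs1 : -(R : ℝ) ≤ s := by exact_mod_cast hs.1
  have hs2 : (s : ℝ) ≤ R := by exact_mod_cast hs.2
  have hs3 : -(R : ℝ) ≤ s' := by exact_mod_cast hs'.1
  have hs4 : (s' : ℝ) ≤ R := by exact_mod_cast hs'.2
  have e1 : |(x : ℝ) + s| ≤ m := by
    refine le_trans ?_ hpm'
    refine abs_le_of_sq_le_sq ?_ hp0
    nlinarith [sq_nonneg ((y : ℝ) + s')]
  have e2 : |(y : ℝ) + s'| ≤ m := by
    refine le_trans ?_ hpm'
    refine abs_le_of_sq_le_sq ?_ hp0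
    nlinarith [sq_nonneg ((x : ℝ) + s)]
  rw [abs_le] at e1 e2
  have f1 : |(x : ℝ)| ≤ m + 2 * R := by
    rw [abs_le]
    constructor <;> linarith [e1.1, e1.2]
  have f2 : |(y : ℝ)| ≤ m + 2 * R := by
    rw [abs_le]
    constructor <;> linarith [e2.1, e2.2]
  have g1 : (x : ℝ) ^ 2 ≤ (m + 2 * R) ^ 2 := by
    rw [← sq_abs]
    exact pow_le_pow_left₀ (abs_nonneg _) f1 2
  have g2 : (y : ℝ) ^ 2 ≤ (m + 2 * R) ^ 2 := by
    rw [← sq_abs]
    exact pow_le_pow_left₀ (abs_nonneg _) f2 2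
  linarith

end Vale.P015.BOX
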