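import Vale.Agent.P015.Defs

namespace Vale.P015.CEN

lemma rational_case (hR : StmtRAT) (a b : ℝ) (_hab : a ^ 2 + b ^ 2 = 1) (g h : ℤ)
    (hgh : (g, h) ≠ (0, 0)) (h0 : a * g + b * h = 0) (hc : 0 < -b * g + a * h) (R : ℕ) (T : ℝ) :
    ∃ x y : ℤ, |a * x + b * y| ≤ 1 ∧ T < -b * x + a * y ∧
      ∀ s s' : ℤ, |s| ≤ R → |s'| ≤ R → ¬ Irreducible (⟨x + s, y + s'⟩ : GaussianInt) := by
  obtain ⟨t, ht, hirr⟩ := hR g h hgh R ⌈T / (-b * g + a * h)⌉
  refine ⟨t * g, t * h, ?_, ?_, hirr⟩
  · have : a * ((t * g : ℤ) : ℝ) + b * ((t * h : ℤ) : ℝ) = 0 := by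
      push_cast
      have : a * (t * g) + b * (t * h) = t * (a * g + b * h) := by ring
      rw [this, h0, mul_zero]
    rw [this]
    simp
  · have h1 : T / (-b * g + a * h) < t := (Int.le_ceil _).trans_lt (by exact_mod_cast ht)
    rw [div_lt_iff₀ hc] at h1
    push_cast
    linarith

theorem thm (hR : StmtRAT) (hB : StmtBOX) (hK : StmtKRO) : StmtCEN := by
  intro a b hab R T
  by_cases hirr : b ≠ 0 ∧ Irrational (a / b)
  · obtain ⟨N, u, v, T0, hN, hbox⟩ := hB R
    obtain ⟨x, y, hx, hy, h1, h2⟩ := hK a b hirr.1 hirr.2 N hN u v (max T (|T0| + 1))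
    refine ⟨x, y, h1, (le_max_left _ _).trans_lt h2, hbox x y hx hy ?_⟩
    have h3 : |T0| + 1 < -b * x + a * y := (le_max_right _ _).trans_lt h2
    have h4 : (x : ℝ) ^ 2 + (y : ℝ) ^ 2 = (a * x + b * y) ^ 2 + (-b * x + a * y) ^ 2 := by
      have : (a * x + b * y) ^ 2 + (-b * x + a * y) ^ 2 =
          (a ^ 2 + b ^ 2) * ((x : ℝ) ^ 2 + (y : ℝ) ^ 2) := by ring
      rw [this, hab, one_mul]
    have h5 := abs_nonneg T0
    have h6 := le_abs_self T0
    rw [h4]
    nlinarith [sq_nonneg (a * x + b * y)]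
  · obtain ⟨g, h, hgh, h0⟩ : ∃ g h : ℤ, (g, h) ≠ (0, 0) ∧ a * g + b * h = 0 := by
      by_cases hb : b = 0
      · exact ⟨0, 1, by simp, by simp [hb]⟩
      · have hq : ¬ Irrational (a / b) := fun h => hirr ⟨hb, h⟩
        unfold Irrational at hq
        push Not at hq
        obtain ⟨q, hq⟩ := hq
        refine ⟨q.den, -q.num, ?_, ?_⟩
        · simp
        · have h1 : (q : ℝ) = (q.num : ℝ) / (q.den : ℝ) := by
            exact_mod_cast (Rat.num_div_den q).symm
          have hd : (q.den : ℝ) ≠ 0 := by exact_mod_cast q.den_nz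
          rw [h1] at hq
          have h2 : (q.num : ℝ) * b = a * q.den := by
            field_simp at hq
            linarith
          push_cast
          linarith
    have hc0 : -b * g + a * h ≠ 0 := by
      intro hc
      have h1 : ((g : ℝ)) ^ 2 + (h : ℝ) ^ 2 = 0 := by
        have : (a * g + b * h) ^ 2 + (-b * g + a * h) ^ 2 =
            (a ^ 2 + b ^ 2) * ((g : ℝ) ^ 2 + (h : ℝ) ^ 2) := by ring
        rw [h0, hc, hab] at this
        linarith
      have h2 : g ^ 2 + h ^ 2 = 0 := by exact_mod_cast h1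
      have h3 : g = 0 := by nlinarith [sq_nonneg g, sq_nonneg h]
      have h4 : h = 0 := by nlinarith [sq_nonneg g, sq_nonneg h]
      exact hgh (by rw [h3, h4])
    rcases lt_or_gt_of_ne hc0 with hc | hc
    · refine rational_case hR a b hab (-g) (-h) ?_ ?_ ?_ R T
      · intro he
        apply hgh
        rw [Prod.mk.injEq] at he ⊢
        omega
      · push_cast
        linarith
      · push_cast
        linarith
    · exact rational_case hR a b hab g h hgh h0 hc R T

end Vale.P015.CEN
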