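import Vale.Agent.P015.Defs

/-! P015, module FIN: an infinite path leaves every strip (from CEN). -/

namespace Vale.P015.FIN

open Real

lemma sq_le_of_norm {D : ℝ} {z w : GaussianInt}
    (h : ‖GaussianInt.toComplex z - GaussianInt.toComplex w‖ ≤ D) :
    ((z.re : ℝ) - w.re) ^ 2 + ((z.im : ℝ) - w.im) ^ 2 ≤ D ^ 2 := by
  have h1 : ‖GaussianInt.toComplex z - GaussianInt.toComplex w‖ ^ 2 ≤ D ^ 2 :=
    pow_le_pow_left₀ (norm_nonneg _) h 2
  rw [Complex.sq_norm, Complex.normSq_apply] at h1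
  simp only [Complex.sub_re, Complex.sub_im, ← GaussianInt.intCast_re,
    ← GaussianInt.intCast_im] at h1
  nlinarith [h1]

lemma upper (hC : StmtCEN) {D : ℝ} {z : ℕ → GaussianInt} (hz : IsPath D z) {a b : ℝ}
    (hab : a ^ 2 + b ^ 2 = 1) {B : ℝ} (hB : ∀ n, |a * (z n).re + b * (z n).im| ≤ B) :
    ∃ U : ℝ, ∀ n, -b * (z n).re + a * (z n).im ≤ U := by
  have hD : 0 ≤ D := le_trans (norm_nonneg _) (hz.2.2 0)
  have hB0 : 0 ≤ B := le_trans (abs_nonneg _) (hB 0)
  obtain ⟨R, hR⟩ := exists_nat_ge (B + 1 + D)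
  obtain ⟨x, y, hl, hT, hbox⟩ := hC a b hab R (-b * (z 0).re + a * (z 0).im + D)
  have key : ∀ n, -b * (z n).re + a * (z n).im < (-b * x + a * y) - D := by
    intro n
    induction n with
    | zero => linarith
    | succ n ih =>
      have hs := sq_le_of_norm (hz.2.2 n)
      have h1 : |(-b * (z (n + 1)).re + a * (z (n + 1)).im) -
          (-b * (z n).re + a * (z n).im)| ≤ D := by
        refine abs_le_of_sq_le_sq ?_ hD
        have e : ((-b * (z (n + 1)).re + a * (z (n + 1)).im) -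
            (-b * (z n).re + a * (z n).im)) ^ 2 +
            (a * (((z n).re : ℝ) - (z (n + 1)).re) + b * (((z n).im : ℝ) - (z (n + 1)).im)) ^ 2 =
            (a ^ 2 + b ^ 2) * ((((z n).re : ℝ) - (z (n + 1)).re) ^ 2 +
              (((z n).im : ℝ) - (z (n + 1)).im) ^ 2) := by ring
        rw [hab, one_mul] at e
        nlinarith [sq_nonneg (a * (((z n).re : ℝ) - (z (n + 1)).re) +
          b * (((z n).im : ℝ) - (z (n + 1)).im))]
      by_contra hcon
      push Not at hcon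
      have h2 := (abs_le.mp h1).2
      have h3 := hB (n + 1)
      set s : ℤ := (z (n + 1)).re - x with hs1
      set s' : ℤ := (z (n + 1)).im - y with hs2
      have e : (s : ℝ) ^ 2 + (s' : ℝ) ^ 2 =
          ((a * (z (n + 1)).re + b * (z (n + 1)).im) - (a * x + b * y)) ^ 2 +
          ((-b * (z (n + 1)).re + a * (z (n + 1)).im) - (-b * x + a * y)) ^ 2 := by
        have : (s : ℝ) ^ 2 + (s' : ℝ) ^ 2 = (a ^ 2 + b ^ 2) * ((s : ℝ) ^ 2 + (s' : ℝ) ^ 2) := by
          rw [hab, one_mul]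
        rw [this, hs1, hs2]
        push_cast
        ring
      have h4 : ((a * (z (n + 1)).re + b * (z (n + 1)).im) - (a * x + b * y)) ^ 2 ≤
          (B + 1) ^ 2 := by
        refine sq_le_sq' ?_ ?_
        · have := (abs_le.mp h3).1
          have := (abs_le.mp hl).2
          linarith
        · have := (abs_le.mp h3).2
          have := (abs_le.mp hl).1
          linarith
      have h5 : ((-b * (z (n + 1)).re + a * (z (n + 1)).im) - (-b * x + a * y)) ^ 2 ≤
          D ^ 2 := by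
        refine sq_le_sq' ?_ ?_ <;> linarith
      have h6 : (s : ℝ) ^ 2 + (s' : ℝ) ^ 2 ≤ (R : ℝ) ^ 2 := by
        have : (B + 1) ^ 2 + D ^ 2 ≤ (B + 1 + D) ^ 2 := by nlinarith
        have h7 : (B + 1 + D) ^ 2 ≤ (R : ℝ) ^ 2 := pow_le_pow_left₀ (by linarith) hR 2
        rw [e]
        linarith
      have hR0 : (0 : ℝ) ≤ R := Nat.cast_nonneg R
      have h8 : |(s : ℝ)| ≤ R := abs_le_of_sq_le_sq (by nlinarith [sq_nonneg (s' : ℝ)]) hR0
      have h9 : |(s' : ℝ)| ≤ R := abs_le_of_sq_le_sq (by nlinarith [sq_nonneg (s : ℝ)]) hR0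
      have h10 : |s| ≤ (R : ℤ) := by exact_mod_cast h8
      have h11 : |s'| ≤ (R : ℤ) := by exact_mod_cast h9
      refine hbox s s' h10 h11 ?_
      have e2 : (⟨x + s, y + s'⟩ : GaussianInt) = z (n + 1) := by
        rw [Zsqrtd.ext_iff]
        constructor <;> simp [hs1, hs2]
      rw [e2]
      exact hz.2.1 (n + 1)
  exact ⟨_, fun n => (key n).le⟩

lemma finite_box (K : ℤ) : {w : GaussianInt | |w.re| ≤ K ∧ |w.im| ≤ K}.Finite := by
  refine ((Set.finite_Icc (-K) K).prod (Set.finite_Icc (-K) K)).image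
    (fun q : ℤ × ℤ => (⟨q.1, q.2⟩ : GaussianInt)) |>.subset ?_
  intro w hw
  exact ⟨(w.re, w.im), ⟨abs_le.mp hw.1, abs_le.mp hw.2⟩, rfl⟩

lemma unit (hC : StmtCEN) {D : ℝ} {z : ℕ → GaussianInt} (hz : IsPath D z) {a b : ℝ}
    (hab : a ^ 2 + b ^ 2 = 1) (B : ℝ) : ∃ n, B < |a * (z n).re + b * (z n).im| := by
  by_contra hcon
  push Not at hcon
  obtain ⟨U, hU⟩ := upper hC hz hab hcon
  obtain ⟨U', hU'⟩ := upper hC hz (a := -a) (b := -b) (by nlinarith) (B := B) (fun n => by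
    have := hcon n
    rwa [show -a * ((z n).re : ℝ) + -b * (z n).im = -(a * (z n).re + b * (z n).im) by ring,
      abs_neg])
  have hB0 : 0 ≤ B := le_trans (abs_nonneg _) (hcon 0)
  obtain ⟨K, hK⟩ := exists_nat_ge (B + |U| + |U'|)
  have hmem : ∀ n, z n ∈ {w : GaussianInt | |w.re| ≤ (K : ℤ) ∧ |w.im| ≤ (K : ℤ)} := by
    intro n
    have h1 := hU n
    have h2 := hU' n
    have h3 := hcon n
    have e : ((z n).re : ℝ) ^ 2 + ((z n).im : ℝ) ^ 2 =
        (a * (z n).re + b * (z n).im) ^ 2 + (-b * (z n).re + a * (z n).im) ^ 2 := by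
      have : ((z n).re : ℝ) ^ 2 + ((z n).im : ℝ) ^ 2 =
          (a ^ 2 + b ^ 2) * (((z n).re : ℝ) ^ 2 + ((z n).im : ℝ) ^ 2) := by rw [hab, one_mul]
      rw [this]
      ring
    have h4 : (a * (z n).re + b * (z n).im) ^ 2 ≤ B ^ 2 := sq_le_sq' (abs_le.mp h3).1
      (abs_le.mp h3).2
    have h5 : (-b * (z n).re + a * (z n).im) ^ 2 ≤ (|U| + |U'|) ^ 2 := by
      refine sq_le_sq' ?_ ?_
      · have := le_abs_self U'
        have := abs_nonneg U
        linarith
      · have := le_abs_self U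
        have := abs_nonneg U'
        linarith
    have h6 : B ^ 2 + (|U| + |U'|) ^ 2 ≤ (K : ℝ) ^ 2 := by
      have h7 : (B + |U| + |U'|) ^ 2 ≤ (K : ℝ) ^ 2 :=
        pow_le_pow_left₀ (by positivity) hK 2
      have := abs_nonneg U
      have := abs_nonneg U'
      nlinarith [mul_nonneg hB0 (abs_nonneg U), mul_nonneg hB0 (abs_nonneg U')]
    have hK0 : (0 : ℝ) ≤ K := Nat.cast_nonneg K
    have h8 : |((z n).re : ℝ)| ≤ K :=
      abs_le_of_sq_le_sq (by nlinarith [sq_nonneg ((z n).im : ℝ)]) hK0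
    have h9 : |((z n).im : ℝ)| ≤ K :=
      abs_le_of_sq_le_sq (by nlinarith [sq_nonneg ((z n).re : ℝ)]) hK0
    exact ⟨by exact_mod_cast h8, by exact_mod_cast h9⟩
  exact Set.infinite_of_injective_forall_mem hz.1 hmem (finite_box K)

theorem thm (hC : StmtCEN) : StmtFIN := by
  intro D z hz a b hab B
  have hpos : 0 < a ^ 2 + b ^ 2 := by
    rcases eq_or_ne a 0 with ha | ha
    · rcases eq_or_ne b 0 with hb | hb
      · exact absurd (by rw [ha, hb]) hab
      · positivity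
    · positivity
  set ρ := √(a ^ 2 + b ^ 2) with hρ
  have hρ0 : 0 < ρ := Real.sqrt_pos.mpr hpos
  have hρ2 : ρ ^ 2 = a ^ 2 + b ^ 2 := Real.sq_sqrt hpos.le
  have hu : (a / ρ) ^ 2 + (b / ρ) ^ 2 = 1 := by
    rw [div_pow, div_pow, ← add_div, ← hρ2, div_self (by positivity)]
  obtain ⟨n, hn⟩ := unit hC hz hu (B / ρ)
  refine ⟨n, ?_⟩
  rw [show a / ρ * ((z n).re : ℝ) + b / ρ * (z n).im = (a * (z n).re + b * (z n).im) / ρ by ring,
    abs_div, abs_of_pos hρ0] at hn
  exact (div_lt_div_iff_of_pos_right hρ0).mp hn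

end Vale.P015.FIN
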