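import Vale.Agent.P015.Defs2
import Vale.Agent.P015.FIN

/-! P015, module CMP: components inside a strip are finite (from CEN). -/

namespace Vale.P015.CMP

open Real

lemma step {a b : ℝ} (hab : a ^ 2 + b ^ 2 = 1) {D B : ℝ} (hD : 0 ≤ D) (hB0 : 0 ≤ B) {R : ℕ}
    (hR : B + 1 + D ≤ R) {x y : ℤ} (hl : |a * x + b * y| ≤ 1)
    (hbox : ∀ s s' : ℤ, |s| ≤ R → |s'| ≤ R → ¬ Irreducible (⟨x + s, y + s'⟩ : GaussianInt))
    {w w' : GaussianInt} (hn : ‖GaussianInt.toComplex w - GaussianInt.toComplex w'‖ ≤ D)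
    (h3 : |a * w'.re + b * w'.im| ≤ B) (hirr : Irreducible w')
    (ih : -b * w.re + a * w.im < (-b * x + a * y) - D) :
    -b * w'.re + a * w'.im < (-b * x + a * y) - D := by
  have hs := FIN.sq_le_of_norm hn
  have h1 : |(-b * w'.re + a * w'.im) - (-b * w.re + a * w.im)| ≤ D := by
    refine abs_le_of_sq_le_sq ?_ hD
    have e : ((-b * (w'.re : ℝ) + a * w'.im) - (-b * w.re + a * w.im)) ^ 2 +
        (a * ((w.re : ℝ) - w'.re) + b * ((w.im : ℝ) - w'.im)) ^ 2 =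
        (a ^ 2 + b ^ 2) * (((w.re : ℝ) - w'.re) ^ 2 + ((w.im : ℝ) - w'.im) ^ 2) := by ring
    rw [hab, one_mul] at e
    nlinarith [sq_nonneg (a * ((w.re : ℝ) - w'.re) + b * ((w.im : ℝ) - w'.im))]
  by_contra hcon
  push Not at hcon
  have h2 := (abs_le.mp h1).2
  set s : ℤ := w'.re - x with hs1
  set s' : ℤ := w'.im - y with hs2
  have e : (s : ℝ) ^ 2 + (s' : ℝ) ^ 2 =
      ((a * w'.re + b * w'.im) - (a * x + b * y)) ^ 2 +
      ((-b * w'.re + a * w'.im) - (-b * x + a * y)) ^ 2 := by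
    have : (s : ℝ) ^ 2 + (s' : ℝ) ^ 2 = (a ^ 2 + b ^ 2) * ((s : ℝ) ^ 2 + (s' : ℝ) ^ 2) := by
      rw [hab, one_mul]
    rw [this, hs1, hs2]
    push_cast
    ring
  have h4 : ((a * w'.re + b * w'.im) - (a * x + b * y)) ^ 2 ≤ (B + 1) ^ 2 := by
    refine sq_le_sq' ?_ ?_
    · have := (abs_le.mp h3).1
      have := (abs_le.mp hl).2
      linarith
    · have := (abs_le.mp h3).2
      have := (abs_le.mp hl).1
      linarith
  have h5 : ((-b * w'.re + a * w'.im) - (-b * x + a * y)) ^ 2 ≤ D ^ 2 := by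
    refine sq_le_sq' ?_ ?_ <;> linarith
  have h6 : (s : ℝ) ^ 2 + (s' : ℝ) ^ 2 ≤ (R : ℝ) ^ 2 := by
    have : (B + 1) ^ 2 + D ^ 2 ≤ (B + 1 + D) ^ 2 := by nlinarith
    have h7 : (B + 1 + D) ^ 2 ≤ (R : ℝ) ^ 2 := pow_le_pow_left₀ (by linarith) hR 2
    rw [e]
    linarith
  have hR0 : (0 : ℝ) ≤ R := Nat.cast_nonneg R
  have h8 : |(s : ℝ)| ≤ R := abs_le_of_sq_le_sq (by nlinarith [sq_nonneg (s' : ℝ)]) hR0
  have h9 : |(s' : ℝ)| ≤ R := abs_le_of_sq_le_sq (by nlinarith [sq_nonneg (s : ℝ)]) hR0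
  have h10 : |s| ≤ (R : ℤ) := by exact_mod_cast h8
  have h11 : |s'| ≤ (R : ℤ) := by exact_mod_cast h9
  refine hbox s s' h10 h11 ?_
  have e2 : (⟨x + s, y + s'⟩ : GaussianInt) = w' := by
    rw [Zsqrtd.ext_iff]
    constructor <;> simp [hs1, hs2]
  rw [e2]
  exact hirr

lemma upper (hC : StmtCEN) (D B : ℝ) {a b : ℝ} (hab : a ^ 2 + b ^ 2 = 1) (z : GaussianInt) :
    ∃ U : ℝ, ∀ w, Relation.ReflTransGen (StripEdge D a b B) z w →
      -b * w.re + a * w.im ≤ U := by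
  obtain ⟨R, hR⟩ := exists_nat_ge (|B| + 1 + |D|)
  obtain ⟨x, y, hl, hT, hbox⟩ := hC a b hab R (-b * z.re + a * z.im + |D|)
  refine ⟨_, fun w hw => (?_ : -b * w.re + a * w.im < (-b * x + a * y) - |D|).le⟩
  induction hw with
  | refl => linarith
  | tail _ hedge ih =>
    exact step hab (abs_nonneg D) (abs_nonneg B) hR hl hbox
      (hedge.2.2.1.trans (le_abs_self D)) (hedge.2.2.2.2.trans (le_abs_self B)) hedge.2.1 ih

lemma edge_neg {D a b B : ℝ} {z w : GaussianInt} (h : StripEdge D a b B z w) :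
    StripEdge D (-a) (-b) B z w := by
  refine ⟨h.1, h.2.1, h.2.2.1, ?_, ?_⟩
  · rw [show -a * (z.re : ℝ) + -b * z.im = -(a * z.re + b * z.im) by ring, abs_neg]
    exact h.2.2.2.1
  · rw [show -a * (w.re : ℝ) + -b * w.im = -(a * w.re + b * w.im) by ring, abs_neg]
    exact h.2.2.2.2

lemma mono' {r p : GaussianInt → GaussianInt → Prop} (h : ∀ x y, r x y → p x y)
    {z w : GaussianInt} (hw : Relation.ReflTransGen r z w) : Relation.ReflTransGen p z w := by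
  induction hw with
  | refl => exact Relation.ReflTransGen.refl
  | tail _ he ih => exact Relation.ReflTransGen.tail ih (h _ _ he)

lemma unit (hC : StmtCEN) (D B : ℝ) {a b : ℝ} (hab : a ^ 2 + b ^ 2 = 1) (z : GaussianInt) :
    {w | Relation.ReflTransGen (StripEdge D a b B) z w}.Finite := by
  obtain ⟨U, hU⟩ := upper hC D B hab z
  obtain ⟨U', hU'⟩ := upper hC D B (a := -a) (b := -b) (by nlinarith) z
  set B1 : ℝ := |B| + |a * z.re + b * z.im| with hB1
  have hB0 : 0 ≤ B1 := by positivity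
  obtain ⟨K, hK⟩ := exists_nat_ge (B1 + |U| + |U'|)
  refine (FIN.finite_box K).subset fun w hw => ?_
  have hw' : Relation.ReflTransGen (StripEdge D a b B) z w := hw
  have h1 := hU w hw'
  have hneg : Relation.ReflTransGen (StripEdge D (-a) (-b) B) z w :=
    mono' (fun _ _ h => edge_neg h) hw'
  have h2 := hU' w hneg
  have h3 : |a * w.re + b * w.im| ≤ B1 := by
    rcases Relation.ReflTransGen.cases_tail hw' with h | ⟨v, -, h⟩
    · rw [h, hB1]
      have := abs_nonneg B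
      linarith
    · have h4 := h.2.2.2.2
      have h5 := le_abs_self B
      have h6 := abs_nonneg (a * (z.re : ℝ) + b * z.im)
      rw [hB1]
      linarith
  have e : (w.re : ℝ) ^ 2 + (w.im : ℝ) ^ 2 =
      (a * w.re + b * w.im) ^ 2 + (-b * w.re + a * w.im) ^ 2 := by
    have : (w.re : ℝ) ^ 2 + (w.im : ℝ) ^ 2 =
        (a ^ 2 + b ^ 2) * ((w.re : ℝ) ^ 2 + (w.im : ℝ) ^ 2) := by rw [hab, one_mul]
    rw [this]
    ring
  have h4 : (a * w.re + b * w.im) ^ 2 ≤ B1 ^ 2 := sq_le_sq' (abs_le.mp h3).1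
    (abs_le.mp h3).2
  have h5 : (-b * w.re + a * w.im) ^ 2 ≤ (|U| + |U'|) ^ 2 := by
    refine sq_le_sq' ?_ ?_
    · have := le_abs_self U'
      have := abs_nonneg U
      linarith
    · have := le_abs_self U
      have := abs_nonneg U'
      linarith
  have h6 : B1 ^ 2 + (|U| + |U'|) ^ 2 ≤ (K : ℝ) ^ 2 := by
    have h7 : (B1 + |U| + |U'|) ^ 2 ≤ (K : ℝ) ^ 2 :=
      pow_le_pow_left₀ (by positivity) hK 2
    have := abs_nonneg U
    have := abs_nonneg U'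
    nlinarith [mul_nonneg hB0 (abs_nonneg U), mul_nonneg hB0 (abs_nonneg U')]
  have hK0 : (0 : ℝ) ≤ K := Nat.cast_nonneg K
  have h8 : |(w.re : ℝ)| ≤ K :=
    abs_le_of_sq_le_sq (by nlinarith [sq_nonneg (w.im : ℝ)]) hK0
  have h9 : |(w.im : ℝ)| ≤ K :=
    abs_le_of_sq_le_sq (by nlinarith [sq_nonneg (w.re : ℝ)]) hK0
  exact ⟨by exact_mod_cast h8, by exact_mod_cast h9⟩

theorem thm (hC : StmtCEN) : StmtCMP := by
  intro D a b B hab z
  have hpos : 0 < a ^ 2 + b ^ 2 := by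
    rcases eq_or_ne a 0 with ha | ha
    · rcases eq_or_ne b 0 with hb | hb
      · exact absurd (by rw [ha, hb]) hab
      · positivity
    · positivity
  set ρ := √(a ^ 2 + b ^ 2) with hρ
  have hρ0 : 0 < ρ := Real.sqrt_pos.mpr hpos
  have hρ2 : ρ ^ 2 = a ^ 2 + b ^ 2 := Real.sq_sqrt hpos.le
  have hu : (a / ρ) ^ 2 + (b / ρ) ^ 2 = 1 := by
    rw [div_pow, div_pow, ← add_div, ← hρ2, div_self (by positivity)]
  refine (unit hC D (B / ρ) hu z).subset fun w hw => ?_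
  have hsc : ∀ v : GaussianInt, |a * v.re + b * v.im| ≤ B →
      |a / ρ * v.re + b / ρ * v.im| ≤ B / ρ := by
    intro v hv
    rw [show a / ρ * (v.re : ℝ) + b / ρ * v.im = (a * v.re + b * v.im) / ρ by ring,
      abs_div, abs_of_pos hρ0]
    exact (div_le_div_iff_of_pos_right hρ0).mpr hv
  have hw' : Relation.ReflTransGen (StripEdge D a b B) z w := hw
  have hfin : Relation.ReflTransGen (StripEdge D (a / ρ) (b / ρ) (B / ρ)) z w :=
    mono' (fun _ _ h => ⟨h.1, h.2.1, h.2.2.1, hsc _ h.2.2.2.1, hsc _ h.2.2.2.2⟩) hw'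
  exact hfin

end Vale.P015.CMP
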