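import Vale.Agent.P015.Defs

/-! P015 module COMP: a composite test for Gaussian integers. -/

namespace Vale.P015.COMP

open Vale.P015

lemma exists_prime (z : GaussianInt) (hz : Prime z) : ∀ k : ℕ, 0 < k → z ∣ (k : GaussianInt) →
    ∃ q : ℕ, q.Prime ∧ z ∣ (q : GaussianInt) := by
  intro k
  induction k using Nat.strong_induction_on with
  | _ k ih =>
    intro hk hd
    by_cases h1 : k = 1
    · subst h1
      rw [Nat.cast_one] at hd
      exact absurd (isUnit_of_dvd_one hd) hz.not_isUnit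
    · have hp := Nat.minFac_prime h1
      obtain ⟨m, hm⟩ := Nat.minFac_dvd k
      have hm2 : (k : GaussianInt) = (k.minFac : GaussianInt) * (m : GaussianInt) := by
        rw [← Nat.cast_mul, ← hm]
      rw [hm2] at hd
      have hm0 : 0 < m := by
        rcases Nat.eq_zero_or_pos m with h | h
        · rw [h, mul_zero] at hm; omega
        · exact h
      rcases hz.dvd_or_dvd hd with h | h
      · exact ⟨_, hp, h⟩
      · refine ih m ?_ hm0 h
        have := hp.two_le
        calc m < 2 * m := by omega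
          _ ≤ k.minFac * m := Nat.mul_le_mul_right m this
          _ = k := hm.symm

theorem thm : StmtCOMP := by
  intro p x y hp hdvd hlt hirr
  set z : GaussianInt := ⟨x, y⟩ with hz
  have hzp : Prime z := hirr.prime
  have hnorm : Zsqrtd.norm z = x ^ 2 + y ^ 2 := by
    simp [Zsqrtd.norm_def, hz]; ring
  obtain ⟨k, hk⟩ : ∃ k : ℕ, x ^ 2 + y ^ 2 = (k : ℤ) :=
    ⟨(x ^ 2 + y ^ 2).toNat, (Int.toNat_of_nonneg (by positivity)).symm⟩
  have hk0 : 0 < k := by
    have : (0 : ℤ) < k := by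
      rw [← hk]; exact lt_of_le_of_lt (by positivity) hlt
    exact_mod_cast this
  have hzk : z ∣ (k : GaussianInt) := by
    have h1 := Zsqrtd.norm_eq_mul_conj z
    rw [hnorm, hk] at h1
    refine ⟨star z, ?_⟩
    rw [← h1]
    simp
  obtain ⟨q, hq, hzq⟩ := exists_prime z hzp k hk0 hzk
  obtain ⟨w, hw⟩ := hzq
  have h2 : (q : ℤ) * q = Zsqrtd.norm z * Zsqrtd.norm w := by
    rw [← Zsqrtd.norm_mul, ← hw, Zsqrtd.norm_natCast]
  rw [hnorm] at h2
  have h3 : (p : ℤ) ∣ (q : ℤ) * q := by
    rw [h2]; exact Dvd.dvd.mul_right hdvd _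
  have h4 : p ∣ q * q := by exact_mod_cast h3
  have h5 : p = q := by
    rcases (Nat.Prime.dvd_mul hp).mp h4 with h | h <;> exact (Nat.prime_dvd_prime_iff_eq hp hq).mp h
  subst h5
  have h6 : x ^ 2 + y ^ 2 ∣ (p : ℤ) * p := ⟨_, h2⟩
  have h7 : (0 : ℤ) < (p : ℤ) * p := by
    have := hp.pos
    positivity
  have h8 := Int.le_of_dvd h7 h6
  nlinarith

end Vale.P015.COMP
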