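import Vale.Agent.P015.Defs

/-! P015: growing regions around the real axis. Interface. -/

namespace Vale.P015

/-- CPG: the numbers `(j M)^2 + 1`, `j = 1, ..., J`, with `M` the product of the primes up to
`2 J`, are pairwise coprime. -/
def StmtCPG : Prop := ∀ J i j : ℕ, i < J → j < J → i ≠ j →
  Nat.Coprime (((i + 1) * primorial (2 * J)) ^ 2 + 1) (((j + 1) * primorial (2 * J)) ^ 2 + 1)

/-- DIV: if `k ^ 2 + 1` divides `x - k t` then `k + i` divides `x + t i`. -/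
def StmtDIV : Prop := ∀ (k : ℕ) (x t : ℤ), 0 < k → ((k : ℤ) ^ 2 + 1) ∣ x - k * t →
  x ^ 2 + t ^ 2 ≠ (k : ℤ) ^ 2 + 1 → ¬ Irreducible (⟨x, t⟩ : GaussianInt)

/-- BLG (from CPG, DIV): composite blocks. `L` columns, rows `|t| ≤ w`. -/
def StmtBLG : Prop := ∀ L w : ℕ, 1 ≤ L → 1 ≤ w → ∀ N : ℕ, 2 ^ (99 * L ^ 2 * w ^ 2) ≤ N →
  ∃ a : ℕ, N ≤ a ∧ a < 2 * N ∧ ∀ s t : ℤ, 0 ≤ s → s < L → |t| ≤ w →
    ¬ Irreducible (⟨a + s, t⟩ : GaussianInt)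

/-- REG (from BLG). -/
def StmtREG : Prop := ∀ D : ℝ, ∃ c : ℝ, 0 < c ∧ ∀ z : ℕ → GaussianInt, IsPath D z →
  ∀ K : ℝ, ∃ n, K < ‖GaussianInt.toComplex (z n)‖ ∧
    c * √(Real.log (2 + |((z n).re : ℝ)|)) < |((z n).im : ℝ)|

end Vale.P015
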