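import Mathlib
import Vale.Agent.P015.DefsG

/-! P015: `(j M)^2 + 1` pairwise coprime. -/

namespace Vale.P015.CPG

theorem aux (J i j : ℕ) (hj : j < J) (hij : i < j) :
    Nat.Coprime (((i + 1) * primorial (2 * J)) ^ 2 + 1) (((j + 1) * primorial (2 * J)) ^ 2 + 1) := by
  rw [Nat.coprime_iff_gcd_eq_one]
  by_contra hne
  obtain ⟨p, hp, hpd⟩ := Nat.exists_prime_and_dvd hne
  have h1 : p ∣ ((i + 1) * primorial (2 * J)) ^ 2 + 1 := hpd.trans (Nat.gcd_dvd_left _ _)
  have h2 : p ∣ ((j + 1) * primorial (2 * J)) ^ 2 + 1 := hpd.trans (Nat.gcd_dvd_right _ _)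
  have hM : ¬ p ∣ primorial (2 * J) := by
    intro h
    have h3 : p ∣ ((i + 1) * primorial (2 * J)) ^ 2 := (h.mul_left _).trans (dvd_pow_self _ two_ne_zero)
    have h4 := (Nat.dvd_add_right h3).1 h1
    exact hp.one_lt.ne' (Nat.dvd_one.1 h4)
  have hbig : 2 * J < p := by
    by_contra hle
    push Not at hle
    exact hM ((Nat.Prime.dvd_primorial_iff hp).2 hle)
  have h5 : p ∣ ((j + 1) * primorial (2 * J)) ^ 2 + 1 - (((i + 1) * primorial (2 * J)) ^ 2 + 1) :=
    Nat.dvd_sub h2 h1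
  have e : ((j + 1) * primorial (2 * J)) ^ 2 + 1 - (((i + 1) * primorial (2 * J)) ^ 2 + 1) =
      (j - i) * (i + j + 2) * primorial (2 * J) ^ 2 := by
    obtain ⟨d, rfl⟩ : ∃ d, j = i + d := ⟨j - i, by omega⟩
    have : (i + d - i) = d := by omega
    rw [this]
    have : ((i + d + 1) * primorial (2 * J)) ^ 2 + 1 =
        (((i + 1) * primorial (2 * J)) ^ 2 + 1) + d * (i + (i + d) + 2) * primorial (2 * J) ^ 2 := by
      ring
    rw [this]
    omega
  rw [e] at h5
  rcases hp.dvd_mul.1 h5 with h6 | h6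
  · rcases hp.dvd_mul.1 h6 with h7 | h7
    · have := Nat.le_of_dvd (by omega) h7
      omega
    · have := Nat.le_of_dvd (by omega) h7
      omega
  · exact hM (hp.dvd_of_dvd_pow h6)

theorem thm : StmtCPG := by
  intro J i j hi hj hij
  rcases lt_or_gt_of_ne hij with h | h
  · exact aux J i j hj h
  · exact (aux J j i hi h).symm

end Vale.P015.CPG
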