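import Vale.Agent.P015.DefsG

/-! P015: DIV. -/

namespace Vale.P015.DIV

theorem thm : StmtDIV := by
  intro k x t hk hdvd hne hirr
  obtain ⟨m, hm⟩ := hdvd
  set u : GaussianInt := ⟨(k : ℤ), 1⟩ with hu
  set w : GaussianInt := ⟨t + k * m, -m⟩ with hw
  have hx : x = k * t + ((k : ℤ) ^ 2 + 1) * m := by linarith
  have hprod : (⟨x, t⟩ : GaussianInt) = u * w := by
    rw [Zsqrtd.ext_iff, hu, hw]
    constructor
    · rw [Zsqrtd.re_mul]
      simp only
      rw [hx]
      ring
    · rw [Zsqrtd.im_mul]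
      simp only
      ring
  have hnu : u.norm = (k : ℤ) ^ 2 + 1 := by
    rw [Zsqrtd.norm_def, hu]
    simp only
    ring
  have hnx : (⟨x, t⟩ : GaussianInt).norm = x ^ 2 + t ^ 2 := by
    rw [Zsqrtd.norm_def]
    simp only
    ring
  have hkpos : (0 : ℤ) < (k : ℤ) := by exact_mod_cast hk
  rcases hirr.isUnit_or_isUnit hprod with h | h
  · have h3 := (Zsqrtd.norm_eq_one_iff' (by norm_num) _).2 h
    rw [hnu] at h3
    nlinarith
  · have h3 := (Zsqrtd.norm_eq_one_iff' (by norm_num) _).2 h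
    have h4 : (⟨x, t⟩ : GaussianInt).norm = u.norm * w.norm := by
      rw [hprod, Zsqrtd.norm_mul]
    rw [hnx, h3, hnu, mul_one] at h4
    exact hne h4

end Vale.P015.DIV
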