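import Mathlib

/-! P015 (Gaussian moats): infinite walks leave every strip. Interface. -/

namespace Vale.P015

/-- an infinite path in the graph `G_D`: distinct Gaussian primes, successive distances at most
`D` -/
def IsPath (D : ℝ) (z : ℕ → GaussianInt) : Prop :=
  Function.Injective z ∧ (∀ n, Irreducible (z n)) ∧
    ∀ n, ‖GaussianInt.toComplex (z n) - GaussianInt.toComplex (z (n + 1))‖ ≤ D

/-- COMP: composite test. `p ∣ x ^ 2 + y ^ 2`, `p ^ 2 < x ^ 2 + y ^ 2` imply not irreducible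
(a Gaussian prime divides a rational prime `q`, so its norm is `q` or `q ^ 2`). -/
def StmtCOMP : Prop := ∀ (p : ℕ) (x y : ℤ), p.Prime → (p : ℤ) ∣ x ^ 2 + y ^ 2 →
  (p : ℤ) ^ 2 < x ^ 2 + y ^ 2 → ¬ Irreducible (⟨x, y⟩ : GaussianInt)

/-- PRI: distinct primes `1 mod 4`, all larger than `M`, with square roots of `-1`. -/
def StmtPRI : Prop := ∀ M : ℕ, ∃ (p : ℤ × ℤ → ℕ) (r : ℤ × ℤ → ℤ), Function.Injective p ∧
  ∀ s, (p s).Prime ∧ M < p s ∧ (p s : ℤ) ∣ r s ^ 2 + 1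

/-- RAT: integer multiples of a fixed vector `g` far out with a big composite box around. -/
def StmtRAT : Prop := ∀ (g h : ℤ), (g, h) ≠ (0, 0) → ∀ (R : ℕ) (T : ℤ), ∃ t : ℤ, T < t ∧
  ∀ s s' : ℤ, |s| ≤ R → |s'| ≤ R → ¬ Irreducible (⟨t * g + s, t * h + s'⟩ : GaussianInt)

/-- BOX: (for irrational directions) residues mod `N` forcing composite boxes far out. -/
def StmtBOX : Prop := ∀ R : ℕ, ∃ (N : ℕ) (u v : ℤ) (T : ℝ), 0 < N ∧
  ∀ x y : ℤ, (N : ℤ) ∣ x - u → (N : ℤ) ∣ y - v → T < (x : ℝ) ^ 2 + (y : ℝ) ^ 2 →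
  ∀ s s' : ℤ, |s| ≤ R → |s'| ≤ R → ¬ Irreducible (⟨x + s, y + s'⟩ : GaussianInt)

/-- KRO: Kronecker: lattice points near a line of irrational slope, far out in a given
direction. -/
def StmtKRO : Prop := ∀ (a b : ℝ), b ≠ 0 → Irrational (a / b) → ∀ (N : ℕ), 0 < N →
  ∀ (u v : ℤ) (T : ℝ), ∃ x y : ℤ, (N : ℤ) ∣ x - u ∧ (N : ℤ) ∣ y - v ∧ |a * x + b * y| ≤ 1 ∧
    T < -b * x + a * y

/-- CEN: centres of composite boxes near the line, far out. From RAT, BOX, KRO. -/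
def StmtCEN : Prop := ∀ (a b : ℝ), a ^ 2 + b ^ 2 = 1 → ∀ (R : ℕ) (T : ℝ), ∃ x y : ℤ,
  |a * x + b * y| ≤ 1 ∧ T < -b * x + a * y ∧
  ∀ s s' : ℤ, |s| ≤ R → |s'| ≤ R → ¬ Irreducible (⟨x + s, y + s'⟩ : GaussianInt)

/-- FIN: from CEN. -/
def StmtFIN : Prop := ∀ (D : ℝ) (z : ℕ → GaussianInt), IsPath D z → ∀ a b : ℝ,
  (a, b) ≠ (0, 0) → ∀ B : ℝ, ∃ n, B < |a * (z n).re + b * (z n).im|

end Vale.P015
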