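import Vale.Agent.P015.Defs

/-! P015: components inside a strip; finite unions of strips. Interface, second part. -/

namespace Vale.P015

/-- an edge of `G_D` inside the strip `|a x + b y| ≤ B` -/
def StripEdge (D a b B : ℝ) (z w : GaussianInt) : Prop :=
  Irreducible z ∧ Irreducible w ∧ ‖GaussianInt.toComplex z - GaussianInt.toComplex w‖ ≤ D ∧
    |a * z.re + b * z.im| ≤ B ∧ |a * w.re + b * w.im| ≤ B

/-- CMP: the connected components of `G_D` inside a strip are finite (from CEN, as in FIN). -/
def StmtCMP : Prop := ∀ (D a b B : ℝ), (a, b) ≠ (0, 0) → ∀ z : GaussianInt,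
  {w | Relation.ReflTransGen (StripEdge D a b B) z w}.Finite

/-- UNI: an infinite path leaves every finite union of strips (from FIN). -/
def StmtUNI : Prop := ∀ (D : ℝ) (z : ℕ → GaussianInt), IsPath D z →
  ∀ (m : ℕ) (a b : Fin m → ℝ), (∀ i, (a i, b i) ≠ (0, 0)) → ∀ B : ℝ,
    ∃ n, ∀ i, B < |a i * (z n).re + b i * (z n).im|

end Vale.P015
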