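import Vale.Agent.P015.Defs
import Vale.Agent.P015.Basic

/-! P015: KRO. -/

namespace Vale.P015.KRO

theorem thm : StmtKRO := by
  intro a b hb hirr N hN u v T
  set α : ℝ := a / b with hα
  have hN1 : (1 : ℝ) ≤ N := by exact_mod_cast hN
  have hNpos : (0 : ℝ) < N := by linarith
  have hbabs : 0 < |b| := abs_pos.2 hb
  set β : ℝ := -((α * u + v) / N) with hβ
  set ε : ℝ := 1 / (|b| * N) with hε
  have hε0 : 0 < ε := by positivity
  have hab : 0 < a ^ 2 + b ^ 2 := by positivity
  set c : ℝ := (a ^ 2 + b ^ 2) / |b| with hc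
  have hc0 : 0 < c := by positivity
  set K : ℝ := |(u : ℝ)| + (|T| + |α| + 1) / c with hK
  have hK0 : 0 ≤ K := by positivity
  have haα : a = α * b := by
    rw [hα]
    field_simp
  -- general part
  have main : ∀ k l : ℤ, |k * α - l - β| ≤ ε →
      T < (-(a ^ 2 + b ^ 2) / b) * ((u : ℝ) + N * k) - |α| →
      ∃ x y : ℤ, (N : ℤ) ∣ x - u ∧ (N : ℤ) ∣ y - v ∧ |a * x + b * y| ≤ 1 ∧
        T < -b * x + a * y := by
    intro k l hkl hT
    refine ⟨u + N * k, v - N * l, ⟨k, by ring⟩, ⟨-l, by ring⟩, ?_, ?_⟩
    · have e : a * ((u + N * k : ℤ) : ℝ) + b * ((v - N * l : ℤ) : ℝ) =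
          (b * N) * (k * α - l - β) := by
        rw [hβ, haα]
        push_cast
        field_simp
        ring
      rw [e, abs_mul, abs_mul, abs_of_pos hNpos]
      calc |b| * N * |k * α - l - β| ≤ |b| * N * ε :=
            mul_le_mul_of_nonneg_left hkl (by positivity)
        _ = 1 := by
            rw [hε]
            field_simp
    · have e : a * ((u + N * k : ℤ) : ℝ) + b * ((v - N * l : ℤ) : ℝ) =
          (b * N) * (k * α - l - β) := by
        rw [hβ, haα]
        push_cast
        field_simp
        ring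
      set η : ℝ := (b * N) * (k * α - l - β) with hη
      have hη1 : |η| ≤ 1 := by
        rw [hη, abs_mul, abs_mul, abs_of_pos hNpos]
        calc |b| * N * |k * α - l - β| ≤ |b| * N * ε :=
              mul_le_mul_of_nonneg_left hkl (by positivity)
          _ = 1 := by
              rw [hε]
              field_simp
      set X : ℝ := ((u + N * k : ℤ) : ℝ) with hX
      set Y : ℝ := ((v - N * l : ℤ) : ℝ) with hY
      have hXe : X = (u : ℝ) + N * k := by
        rw [hX]
        push_cast
        rfl
      have e2 : -b * X + a * Y = (-(a ^ 2 + b ^ 2) / b) * X + α * η := by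
        rw [← e, hα]
        field_simp
        ring
      have e3 : -|α| ≤ α * η := by
        have h1 : |α * η| ≤ |α| := by
          rw [abs_mul]
          calc |α| * |η| ≤ |α| * 1 := mul_le_mul_of_nonneg_left hη1 (abs_nonneg _)
            _ = |α| := mul_one _
        have h2 := neg_abs_le (α * η)
        linarith
      rw [e2, hXe]
      linarith
  have hu := neg_abs_le (u : ℝ)
  have hu' := le_abs_self (u : ℝ)
  have hTT := le_abs_self T
  rcases lt_or_gt_of_ne hb with hneg | hpos
  · obtain ⟨k, l, hk, hkl⟩ := Vale.Agent.P015.approx hirr β K hε0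
    refine main k l hkl ?_
    have e1 : -(a ^ 2 + b ^ 2) / b = c := by
      rw [hc, abs_of_neg hneg, neg_div, div_neg]
    rw [e1]
    have h1 : (k : ℝ) ≤ N * k := by nlinarith
    have h2 : (|T| + |α| + 1) / c ≤ (u : ℝ) + N * k := by linarith
    have h3 := mul_le_mul_of_nonneg_left h2 hc0.le
    have h4 : c * ((|T| + |α| + 1) / c) = |T| + |α| + 1 := by field_simp
    linarith
  · obtain ⟨k, l, hk, hkl⟩ := Vale.Agent.P015.approx hirr.neg β K hε0
    refine main (-k) l ?_ ?_
    · have e : ((-k : ℤ) : ℝ) * α - l - β = k * -α - l - β := by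
        push_cast
        ring
      rw [e]
      exact hkl
    · have e1 : -(a ^ 2 + b ^ 2) / b = -c := by
        rw [hc, abs_of_pos hpos, neg_div]
      rw [e1]
      push_cast
      have h1 : (k : ℝ) ≤ N * k := by nlinarith
      have h2 : (|T| + |α| + 1) / c ≤ -(u : ℝ) + N * k := by linarith
      have h3 := mul_le_mul_of_nonneg_left h2 hc0.le
      have h4 : c * ((|T| + |α| + 1) / c) = |T| + |α| + 1 := by field_simp
      nlinarith

end Vale.P015.KRO
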