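import Mathlib
import Vale.Agent.P015.Defs

/-! P015: PRI. -/

namespace Vale.P015.PRI

theorem thm : StmtPRI := by
  intro M
  have hinf : {p : ℕ | p.Prime ∧ p ≡ 1 [MOD 4]}.Infinite :=
    Nat.infinite_setOfPred_prime_modEq_one (k := 4) (by norm_num)
  have hinf2 : ({p : ℕ | p.Prime ∧ p ≡ 1 [MOD 4]} \ {p : ℕ | p ≤ M}).Infinite :=
    hinf.diff (Set.finite_le_nat M)
  let e := hinf2.natEmbedding
  obtain ⟨g, hg⟩ := exists_injective_nat (ℤ × ℤ)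
  have hp : ∀ s : ℤ × ℤ, (e (g s) : ℕ).Prime ∧ M < (e (g s) : ℕ) ∧ (e (g s) : ℕ) % 4 = 1 := by
    intro s
    have h := (e (g s)).2
    exact ⟨h.1.1, not_le.1 h.2, h.1.2⟩
  have hr : ∀ s : ℤ × ℤ, ∃ r : ℤ, ((e (g s) : ℕ) : ℤ) ∣ r ^ 2 + 1 := by
    intro s
    haveI : Fact (e (g s) : ℕ).Prime := ⟨(hp s).1⟩
    have h1 : (e (g s) : ℕ) % 4 ≠ 3 := by rw [(hp s).2.2]; norm_num
    obtain ⟨y, hy⟩ := ZMod.exists_sq_eq_neg_one_iff.2 h1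
    obtain ⟨r, hr⟩ := ZMod.intCast_surjective y
    refine ⟨r, ?_⟩
    rw [← ZMod.intCast_zmod_eq_zero_iff_dvd]
    push_cast
    rw [hr, pow_two, ← hy]
    ring
  choose r hr using hr
  refine ⟨fun s => (e (g s) : ℕ), r, ?_, fun s => ⟨(hp s).1, (hp s).2.1, hr s⟩⟩
  intro s t hst
  exact hg (e.injective (Subtype.ext hst))

end Vale.P015.PRI
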