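import Vale.Agent.P015.Defs

/-! P015 module RAT: composite boxes around far multiples of a fixed integer vector. -/

namespace Vale.P015.RAT

open Vale.P015

theorem thm (hC : StmtCOMP) (hP : StmtPRI) : StmtRAT := by
  intro g h hgh R T
  have hgh0 : 0 < g ^ 2 + h ^ 2 := by
    by_cases h1 : g = 0
    · by_cases h2 : h = 0
      · exact absurd (by rw [h1, h2]) hgh
      · positivity
    · positivity
  obtain ⟨p, r, hinj, hp⟩ := hP (g ^ 2 + h ^ 2).toNat
  have key : ∀ i : ℤ × ℤ, ∃ a : ℕ,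
      (p i : ℤ) ∣ (a : ℤ) * (g - r i * h) - (r i * i.2 - i.1) := by
    intro i
    obtain ⟨hpp, hM, hr⟩ := hp i
    have hnd : ¬ (p i : ℤ) ∣ (g - r i * h) := by
      intro hd
      have h1 : (p i : ℤ) ∣ g ^ 2 + h ^ 2 := by
        have h0 : g ^ 2 + h ^ 2 = (g - r i * h) * (g + r i * h) + (r i ^ 2 + 1) * h ^ 2 := by
          ring
        rw [h0]
        exact dvd_add (Dvd.dvd.mul_right hd _) (Dvd.dvd.mul_right hr _)
      have h2 := Int.le_of_dvd hgh0 h1
      have h3 : ((g ^ 2 + h ^ 2).toNat : ℤ) = g ^ 2 + h ^ 2 := Int.toNat_of_nonneg hgh0.le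
      have h4 : ((g ^ 2 + h ^ 2).toNat : ℤ) < p i := by exact_mod_cast hM
      linarith
    have hcop : IsCoprime (p i : ℤ) (g - r i * h) :=
      (Nat.prime_iff_prime_int.mp hpp).coprime_iff_not_dvd.mpr hnd
    obtain ⟨u, v, huv⟩ := hcop
    have hp0 : (0 : ℤ) < p i := by exact_mod_cast hpp.pos
    refine ⟨((v * (r i * i.2 - i.1)) % (p i)).toNat, ?_⟩
    rw [Int.toNat_of_nonneg (Int.emod_nonneg _ hp0.ne'), Int.emod_def]
    refine ⟨-(r i * i.2 - i.1) * u - ((v * (r i * i.2 - i.1)) / p i) * (g - r i * h), ?_⟩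
    linear_combination (r i * i.2 - i.1) * huv
  choose a ha using key
  set F : Finset (ℤ × ℤ) := (Finset.Icc (-(R : ℤ)) R) ×ˢ (Finset.Icc (-(R : ℤ)) R) with hF
  obtain ⟨k, hk⟩ := Nat.chineseRemainderOfFinset a p F (fun i _ => (hp i).1.ne_zero)
    (fun i _ j _ hij => (Nat.coprime_primes (hp i).1 (hp j).1).mpr fun e => hij (hinj e))
  set N : ℕ := ∏ i ∈ F, p i with hN
  have hN0 : 0 < N := Finset.prod_pos fun i _ => (hp i).1.pos
  set m : ℕ := T.natAbs + N + R + 1 with hm
  have hmN : m ≤ m * N := Nat.le_mul_of_pos_right m hN0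
  have ht1 : ((T.natAbs + N + R + 1 : ℕ) : ℤ) ≤ (k : ℤ) + m * N := by
    have : m ≤ k + m * N := by omega
    exact_mod_cast this
  push_cast at ht1
  refine ⟨(k : ℤ) + m * N, ?_, ?_⟩
  · have h1 : T ≤ |T| := le_abs_self T
    have h2 : (0 : ℤ) ≤ N := by positivity
    have h3 : (0 : ℤ) ≤ R := by positivity
    omega
  · intro s s' hs hs'
    set t : ℤ := (k : ℤ) + m * N with ht
    have hi : (s, s') ∈ F := by
      rw [hF, Finset.mem_product, Finset.mem_Icc, Finset.mem_Icc]
      exact ⟨abs_le.mp hs, abs_le.mp hs'⟩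
    set i : ℤ × ℤ := (s, s') with hidef
    have hpN : p i ∣ N := Finset.dvd_prod_of_mem p hi
    have hple : (p i : ℤ) ≤ N := by exact_mod_cast Nat.le_of_dvd hN0 hpN
    have h1 : (p i : ℤ) ∣ (a i : ℤ) - k := Nat.modEq_iff_dvd.mp (hk i hi)
    have h2 : (p i : ℤ) ∣ t * g + s - r i * (t * h + s') := by
      have e1 : t * g + s - r i * (t * h + s') =
          ((a i : ℤ) * (g - r i * h) - (r i * i.2 - i.1)) - ((a i : ℤ) - k) * (g - r i * h) +
            (N : ℤ) * (m * (g - r i * h)) := by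
        simp only [hidef, ht]; ring
      rw [e1]
      have hpN' : (p i : ℤ) ∣ (N : ℤ) := by exact_mod_cast hpN
      exact dvd_add (dvd_sub (ha i) (Dvd.dvd.mul_right h1 _)) (Dvd.dvd.mul_right hpN' _)
    have h3 : (p i : ℤ) ∣ (t * g + s) ^ 2 + (t * h + s') ^ 2 := by
      have e1 : (t * g + s) ^ 2 + (t * h + s') ^ 2 =
          (t * g + s - r i * (t * h + s')) * (t * g + s + r i * (t * h + s')) +
            (r i ^ 2 + 1) * (t * h + s') ^ 2 := by ring
      rw [e1]
      exact dvd_add (Dvd.dvd.mul_right h2 _) (Dvd.dvd.mul_right (hp i).2.2 _)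
    refine hC (p i) _ _ (hp i).1 h3 ?_
    have hp0 : (0 : ℤ) < p i := by exact_mod_cast (hp i).1.pos
    have hTn : (0 : ℤ) ≤ |T| := abs_nonneg T
    have big : ∀ g s : ℤ, g ≠ 0 → |s| ≤ R → (p i : ℤ) ^ 2 < (t * g + s) ^ 2 := by
      intro g s hg hs
      have hg1 : 1 ≤ |g| := Int.one_le_abs hg
      have ht0 : 0 ≤ t := by linarith
      have e1 : |t * g| = t * |g| := by rw [abs_mul, abs_of_nonneg ht0]
      have e2 : t ≤ t * |g| := by nlinarith
      have e3 : |t * g| ≤ |t * g + s| + |s| := by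
        have := abs_sub (t * g + s) s
        simpa using this
      have e4 : (p i : ℤ) < |t * g + s| := by linarith
      rw [← sq_abs (t * g + s)]
      nlinarith
    by_cases hg : g = 0
    · have hh : h ≠ 0 := by
        rintro rfl
        exact hgh (by rw [hg])
      have := big h s' hh hs'
      nlinarith [sq_nonneg (t * g + s)]
    · have := big g s hg hs
      nlinarith [sq_nonneg (t * h + s')]

end Vale.P015.RAT
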