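import Vale.Agent.P015.UNI
import Vale.Agent.P015.COMP
import Vale.Agent.P015.PRI
import Vale.Agent.P015.RAT
import Vale.Agent.P015.BOX
import Vale.Agent.P015.KRO
import Vale.Agent.P015.CEN
import Vale.Agent.P015.CMP

/-! P015: prime-free disks centred on every real line; all modules put together. -/

namespace Vale.P015.Disk

open Real

theorem cen : StmtCEN := CEN.thm (RAT.thm COMP.thm PRI.thm) BOX.thm KRO.thm

theorem disks (a b c : ℝ) (hab : (a, b) ≠ (0, 0)) (R T : ℝ) :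
    ∃ x y : ℝ, a * x + b * y = c ∧ T < -b * x + a * y ∧
      ∀ w : GaussianInt, ((w.re : ℝ) - x) ^ 2 + ((w.im : ℝ) - y) ^ 2 ≤ R ^ 2 →
        ¬ Irreducible w := by
  have hpos : 0 < a ^ 2 + b ^ 2 := by
    rcases eq_or_ne a 0 with ha | ha
    · rcases eq_or_ne b 0 with hb | hb
      · exact absurd (by rw [ha, hb]) hab
      · positivity
    · positivity
  set ρ := √(a ^ 2 + b ^ 2) with hρ
  have hρ0 : 0 < ρ := Real.sqrt_pos.mpr hpos
  have hρ2 : ρ ^ 2 = a ^ 2 + b ^ 2 := Real.sq_sqrt hpos.le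
  obtain ⟨a', ha'⟩ : ∃ a', a = ρ * a' := ⟨a / ρ, by field_simp⟩
  obtain ⟨b', hb'⟩ : ∃ b', b = ρ * b' := ⟨b / ρ, by field_simp⟩
  obtain ⟨c', hc'⟩ : ∃ c', c = ρ * c' := ⟨c / ρ, by field_simp⟩
  have hu : a' ^ 2 + b' ^ 2 = 1 := by
    have h1 : ρ ^ 2 * (a' ^ 2 + b' ^ 2) = ρ ^ 2 * 1 := by
      rw [mul_one, hρ2, ← hρ2]
      rw [ha', hb'] at hρ2
      linarith
    exact mul_left_cancel₀ (by positivity) h1
  obtain ⟨R', hR'⟩ := exists_nat_ge (|R| + 1 + |c'|)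
  obtain ⟨x0, y0, hl, hT, hbox⟩ := cen a' b' hu R' (T / ρ)
  set δ : ℝ := a' * x0 + b' * y0 - c' with hδ
  have hδ1 : |δ| ≤ 1 + |c'| := (abs_sub _ _).trans (by linarith)
  have ha1 : |a'| ≤ 1 := by
    rw [← abs_one]
    exact sq_le_sq.mp (by nlinarith [sq_nonneg b'])
  have hb1 : |b'| ≤ 1 := by
    rw [← abs_one]
    exact sq_le_sq.mp (by nlinarith [sq_nonneg a'])
  have hda : |δ * a'| ≤ 1 + |c'| := by
    rw [abs_mul]
    calc |δ| * |a'| ≤ |δ| * 1 := mul_le_mul_of_nonneg_left ha1 (abs_nonneg _)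
      _ ≤ 1 + |c'| := by rw [mul_one]; exact hδ1
  have hdb : |δ * b'| ≤ 1 + |c'| := by
    rw [abs_mul]
    calc |δ| * |b'| ≤ |δ| * 1 := mul_le_mul_of_nonneg_left hb1 (abs_nonneg _)
      _ ≤ 1 + |c'| := by rw [mul_one]; exact hδ1
  refine ⟨x0 - δ * a', y0 - δ * b', ?_, ?_, ?_⟩
  · have e : ρ * a' * (x0 - δ * a') + ρ * b' * (y0 - δ * b') =
        ρ * (a' * x0 + b' * y0 - δ * (a' ^ 2 + b' ^ 2)) := by ring
    rw [ha', hb', hc', e, hu, hδ]
    ring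
  · have e : -(ρ * b') * (x0 - δ * a') + ρ * a' * (y0 - δ * b') =
        ρ * (-b' * x0 + a' * y0) := by ring
    rw [ha', hb', e]
    rw [div_lt_iff₀ hρ0] at hT
    linarith
  · intro w hw
    have h1 : |(w.re : ℝ) - (x0 - δ * a')| ≤ |R| :=
      sq_le_sq.mp (by nlinarith [sq_nonneg ((w.im : ℝ) - (y0 - δ * b'))])
    have h2 : |(w.im : ℝ) - (y0 - δ * b')| ≤ |R| :=
      sq_le_sq.mp (by nlinarith [sq_nonneg ((w.re : ℝ) - (x0 - δ * a'))])
    rw [abs_le] at h1 h2 hda hdb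
    have h3 : |((w.re - x0 : ℤ) : ℝ)| ≤ R' := by
      push_cast
      rw [abs_le]
      constructor <;> linarith [h1.1, h1.2, hda.1, hda.2]
    have h4 : |((w.im - y0 : ℤ) : ℝ)| ≤ R' := by
      push_cast
      rw [abs_le]
      constructor <;> linarith [h2.1, h2.2, hdb.1, hdb.2]
    have h5 := hbox (w.re - x0) (w.im - y0) (by exact_mod_cast h3) (by exact_mod_cast h4)
    have e : (⟨x0 + (w.re - x0), y0 + (w.im - y0)⟩ : GaussianInt) = w := by
      rw [Zsqrtd.ext_iff]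
      constructor <;> simp
    rw [e] at h5
    exact h5

theorem unions (D : ℝ) (z : ℕ → GaussianInt) (hz : IsPath D z) (m : ℕ) (a b c : Fin m → ℝ)
    (hab : ∀ i, (a i, b i) ≠ (0, 0)) (B : ℝ) (N : ℕ) :
    ∃ n, N ≤ n ∧ ∀ i, B < |a i * (z n).re + b i * (z n).im - c i| := by
  obtain ⟨M, hM⟩ := (Set.finite_range fun i : Fin m => |c i|).bddAbove
  obtain ⟨n, hn⟩ := UNI.thm (FIN.thm cen) D _ (UNI.tail hz N) m a b hab (B + M)
  refine ⟨n + N, by omega, fun i => ?_⟩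
  have h1 := hn i
  have h2 : |c i| ≤ M := hM ⟨i, rfl⟩
  have h3 := abs_sub_abs_le_abs_sub (a i * ((z (n + N)).re : ℝ) + b i * (z (n + N)).im) (c i)
  linarith

theorem comps (D a b c B : ℝ) (hab : (a, b) ≠ (0, 0)) (z : GaussianInt) :
    {w | Relation.ReflTransGen (fun u v : GaussianInt => Irreducible u ∧ Irreducible v ∧
      ‖GaussianInt.toComplex u - GaussianInt.toComplex v‖ ≤ D ∧
      |a * u.re + b * u.im - c| ≤ B ∧ |a * v.re + b * v.im - c| ≤ B) z w}.Finite := by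
  refine (CMP.thm cen D a b (B + |c|) hab z).subset fun w hw => ?_
  have hs : ∀ u : GaussianInt, |a * u.re + b * u.im - c| ≤ B →
      |a * u.re + b * u.im| ≤ B + |c| := by
    intro u hu
    have h3 := abs_sub_abs_le_abs_sub (a * (u.re : ℝ) + b * u.im) c
    linarith
  exact CMP.mono' (fun _ _ h => ⟨h.1, h.2.1, h.2.2.1, hs _ h.2.2.2.1, hs _ h.2.2.2.2⟩) hw

end Vale.P015.Disk
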