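import Vale.Agent.P015.Defs2
import Vale.Agent.P015.FIN

/-! P015, module UNI: an infinite path leaves every finite union of strips (from FIN). -/

namespace Vale.P015.UNI

lemma tail {D : ℝ} {z : ℕ → GaussianInt} (hz : IsPath D z) (N : ℕ) :
    IsPath D fun n => z (n + N) := by
  refine ⟨fun i j h => ?_, fun n => hz.2.1 _, fun n => ?_⟩
  · have := hz.1 h
    omega
  · have := hz.2.2 (n + N)
    rwa [show n + N + 1 = n + 1 + N by ring] at this

lemma escape {D : ℝ} {z : ℕ → GaussianInt} (hz : IsPath D z) (K : ℤ) :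
    ∃ N, ∀ n, N ≤ n → ¬ (|(z n).re| ≤ K ∧ |(z n).im| ≤ K) := by
  have h1 := hz.1.tendsto_cofinite.eventually
    ((FIN.finite_box K).compl_mem_cofinite)
  rw [Nat.cofinite_eq_atTop] at h1
  obtain ⟨N, hN⟩ := Filter.eventually_atTop.mp h1
  exact ⟨N, fun n hn h => hN n hn h⟩

lemma lin_step {D a b : ℝ} {z w : GaussianInt}
    (h : ‖GaussianInt.toComplex z - GaussianInt.toComplex w‖ ≤ D) (hD : 0 ≤ D) :
    |a * z.re + b * z.im| ≤ |a * w.re + b * w.im| + (|a| + |b|) * D := by
  have h1 := FIN.sq_le_of_norm h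
  have h2 : |(z.re : ℝ) - w.re| ≤ D :=
    abs_le_of_sq_le_sq (by nlinarith [sq_nonneg ((z.im : ℝ) - w.im)]) hD
  have h3 : |(z.im : ℝ) - w.im| ≤ D :=
    abs_le_of_sq_le_sq (by nlinarith [sq_nonneg ((z.re : ℝ) - w.re)]) hD
  have e : a * (z.re : ℝ) + b * z.im =
      (a * w.re + b * w.im) + (a * ((z.re : ℝ) - w.re) + b * ((z.im : ℝ) - w.im)) := by ring
  rw [e]
  refine (abs_add_le _ _).trans (add_le_add le_rfl ?_)
  refine (abs_add_le _ _).trans ?_
  rw [abs_mul, abs_mul, add_mul]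
  exact add_le_add (mul_le_mul_of_nonneg_left h2 (abs_nonneg a))
    (mul_le_mul_of_nonneg_left h3 (abs_nonneg b))

lemma cramer {a b c d x y B B' : ℝ} (hdet : a * d - c * b ≠ 0) (h1 : |a * x + b * y| ≤ B)
    (h2 : |c * x + d * y| ≤ B') :
    |x| ≤ ((|c| + |d|) * B + (|a| + |b|) * B') / |a * d - c * b| ∧
    |y| ≤ ((|c| + |d|) * B + (|a| + |b|) * B') / |a * d - c * b| := by
  have hd : 0 < |a * d - c * b| := abs_pos.mpr hdet
  have hB : 0 ≤ B := (abs_nonneg _).trans h1
  have hB' : 0 ≤ B' := (abs_nonneg _).trans h2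
  constructor
  · rw [le_div_iff₀ hd, ← abs_mul]
    have e : x * (a * d - c * b) = d * (a * x + b * y) - b * (c * x + d * y) := by ring
    rw [e]
    refine (abs_sub _ _).trans ?_
    rw [abs_mul, abs_mul]
    have g1 := mul_le_mul_of_nonneg_left h1 (abs_nonneg d)
    have g2 := mul_le_mul_of_nonneg_left h2 (abs_nonneg b)
    have g3 := mul_nonneg (abs_nonneg c) hB
    have g4 := mul_nonneg (abs_nonneg a) hB'
    nlinarith
  · rw [le_div_iff₀ hd, ← abs_mul]
    have e : y * (a * d - c * b) = a * (c * x + d * y) - c * (a * x + b * y) := by ring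
    rw [e]
    refine (abs_sub _ _).trans ?_
    rw [abs_mul, abs_mul]
    have g1 := mul_le_mul_of_nonneg_left h1 (abs_nonneg c)
    have g2 := mul_le_mul_of_nonneg_left h2 (abs_nonneg a)
    have g3 := mul_nonneg (abs_nonneg d) hB
    have g4 := mul_nonneg (abs_nonneg b) hB'
    nlinarith

lemma par_trans {a b c d e f : ℝ} (h : (c, d) ≠ (0, 0)) (h1 : a * d - c * b = 0)
    (h2 : c * f - e * d = 0) : a * f - e * b = 0 := by
  have hc : c * (a * f - e * b) = 0 := by
    linear_combination a * h2 + e * h1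
  have hd : d * (a * f - e * b) = 0 := by
    linear_combination f * h1 + b * h2
  rcases mul_eq_zero.mp hc with h3 | h3
  · rcases mul_eq_zero.mp hd with h4 | h4
    · exact absurd (by rw [h3, h4]) h
    · exact h4
  · exact h3

lemma par_bound {a b c d x y B : ℝ} (h : (c, d) ≠ (0, 0)) (h1 : a * d - c * b = 0)
    (h2 : |c * x + d * y| ≤ B) : |a * x + b * y| ≤ (|a| + |b|) * B / (|c| + |d|) := by
  have hpos : 0 < |c| + |d| := by
    rcases eq_or_ne c 0 with hc | hc
    · rcases eq_or_ne d 0 with hd | hd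
      · exact absurd (by rw [hc, hd]) h
      · have := abs_pos.mpr hd
        have := abs_nonneg c
        linarith
    · have := abs_pos.mpr hc
      have := abs_nonneg d
      linarith
  rw [le_div_iff₀ hpos, mul_add, ← abs_mul, ← abs_mul]
  have e1 : (a * x + b * y) * c = a * (c * x + d * y) := by
    linear_combination (-y) * h1
  have e2 : (a * x + b * y) * d = b * (c * x + d * y) := by
    linear_combination x * h1
  rw [e1, e2, abs_mul, abs_mul, ← add_mul]
  exact mul_le_mul_of_nonneg_left h2 (by positivity)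

theorem thm (hF : StmtFIN) : StmtUNI := by
  intro D z hz m a b hab B
  by_contra hcon
  push Not at hcon
  have hD : 0 ≤ D := le_trans (norm_nonneg _) (hz.2.2 0)
  -- a common bound for the bounded pieces
  obtain ⟨K, hK⟩ : ∃ K : ℕ, ∀ q : Fin m × Fin m,
      ((|a q.2| + |b q.2|) * B + (|a q.1| + |b q.1|) * (B + (|a q.2| + |b q.2|) * D)) /
        |a q.1 * b q.2 - a q.2 * b q.1| ≤ K := by
    obtain ⟨M, hM⟩ := (Set.finite_range fun q : Fin m × Fin m =>
      ((|a q.2| + |b q.2|) * B + (|a q.1| + |b q.1|) * (B + (|a q.2| + |b q.2|) * D)) /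
        |a q.1 * b q.2 - a q.2 * b q.1|).bddAbove
    obtain ⟨K, hK⟩ := exists_nat_ge M
    exact ⟨K, fun q => (hM ⟨q, rfl⟩).trans hK⟩
  obtain ⟨N, hN⟩ := escape hz (K : ℤ)
  obtain ⟨i₀, hi₀⟩ := hcon N
  have claim : ∀ n, ∃ i, a i₀ * b i - a i * b i₀ = 0 ∧
      |a i * (z (n + N)).re + b i * (z (n + N)).im| ≤ B := by
    intro n
    induction n with
    | zero => exact ⟨i₀, by ring, by simpa using hi₀⟩
    | succ n ih =>
      obtain ⟨i, hi, hi2⟩ := ih
      obtain ⟨j, hj⟩ := hcon (n + 1 + N)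
      refine ⟨j, ?_, hj⟩
      by_contra hne
      have hij : a i * b j - a j * b i ≠ 0 := fun h0 => hne (par_trans (hab i) hi h0)
      have hstep := hz.2.2 (n + N)
      rw [show n + N + 1 = n + 1 + N by ring] at hstep
      have h1 := lin_step (a := a j) (b := b j) hstep hD
      have h2 : |a j * ((z (n + N)).re : ℝ) + b j * (z (n + N)).im| ≤
          B + (|a j| + |b j|) * D := by linarith
      obtain ⟨h3, h4⟩ := cramer hij hi2 h2
      have h5 := hK (i, j)
      refine hN (n + N) (by omega) ⟨?_, ?_⟩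
      · have h6 : |((z (n + N)).re : ℝ)| ≤ (K : ℝ) := h3.trans h5
        exact_mod_cast h6
      · have h6 : |((z (n + N)).im : ℝ)| ≤ (K : ℝ) := h4.trans h5
        exact_mod_cast h6
  obtain ⟨M, hM⟩ := (Set.finite_range fun i : Fin m =>
    (|a i₀| + |b i₀|) * B / (|a i| + |b i|)).bddAbove
  obtain ⟨n, hn⟩ := hF D _ (tail hz N) (a i₀) (b i₀) (hab i₀) M
  obtain ⟨i, hi, hi2⟩ := claim n
  have h1 := par_bound (hab i) hi hi2
  have h2 := hM ⟨i, rfl⟩
  simp only at h2
  linarith

end Vale.P015.UNI
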