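import Vale.Agent.P015.DefsG
import Vale.Agent.P015.UNI

/-! P015, module REG: growing regions (from BLG). -/

namespace Vale.P015.REG

lemma region_bound {L w : ℕ} (hL : 1 ≤ L) (hw : 1 ≤ w) {x : ℝ}
    (hx : |x| ≤ 2 * (2 : ℝ) ^ (99 * L ^ 2 * w ^ 2) + L) :
    1 / (11 * (L : ℝ)) * √(Real.log (2 + |x|)) ≤ w := by
  have hL' : (1 : ℝ) ≤ L := by exact_mod_cast hL
  have hw' : (1 : ℝ) ≤ w := by exact_mod_cast hw
  set E : ℕ := 99 * L ^ 2 * w ^ 2 with hE
  have hLE : L ≤ E := by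
    rw [hE]
    nlinarith [Nat.mul_le_mul hL hL, Nat.mul_le_mul hw hw, Nat.pos_of_ne_zero (by
      positivity : L ^ 2 * w ^ 2 ≠ 0), Nat.mul_le_mul (Nat.mul_le_mul (le_refl L) hL)
      (Nat.mul_le_mul hw hw)]
  have h1 : (L : ℝ) + 1 ≤ (2 : ℝ) ^ E := by
    have : L + 1 ≤ 2 ^ E := (Nat.succ_le_succ hLE).trans (Nat.lt_two_pow_self).nat_succ_le
    exact_mod_cast this
  have h2 : 2 + |x| ≤ (2 : ℝ) ^ (E + 2) := by
    have e : (2 : ℝ) ^ (E + 2) = 4 * (2 : ℝ) ^ E := by rw [pow_add]; ring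
    have h3 : (1 : ℝ) ≤ (2 : ℝ) ^ E := one_le_pow₀ (by norm_num)
    rw [e]
    linarith
  have h4 : Real.log (2 + |x|) ≤ (11 * (L : ℝ) * w) ^ 2 := by
    have h5 : Real.log (2 + |x|) ≤ Real.log ((2 : ℝ) ^ (E + 2)) :=
      Real.log_le_log (by positivity) h2
    rw [Real.log_pow] at h5
    have h6 : Real.log 2 ≤ 1 := by
      have := Real.log_two_lt_d9
      linarith
    have h7 : ((E + 2 : ℕ) : ℝ) * Real.log 2 ≤ ((E + 2 : ℕ) : ℝ) * 1 :=
      mul_le_mul_of_nonneg_left h6 (Nat.cast_nonneg _)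
    have h8 : ((E + 2 : ℕ) : ℝ) = 99 * (L : ℝ) ^ 2 * (w : ℝ) ^ 2 + 2 := by
      rw [hE]; push_cast; ring
    have h9 : (1 : ℝ) ≤ (L : ℝ) ^ 2 * (w : ℝ) ^ 2 :=
      one_le_mul_of_one_le_of_one_le (one_le_pow₀ hL') (one_le_pow₀ hw')
    nlinarith
  have h10 : √(Real.log (2 + |x|)) ≤ 11 * (L : ℝ) * w := by
    rw [Real.sqrt_le_left (by positivity)]
    exact h4
  calc 1 / (11 * (L : ℝ)) * √(Real.log (2 + |x|)) ≤ 1 / (11 * (L : ℝ)) * (11 * (L : ℝ) * w) :=
        mul_le_mul_of_nonneg_left h10 (by positivity)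
    _ = w := by field_simp

theorem thm (hB : StmtBLG) : StmtREG := by
  intro D
  obtain ⟨L, hL, hDL⟩ : ∃ L : ℕ, 1 ≤ L ∧ D < L := by
    obtain ⟨L, hL⟩ := exists_nat_gt D
    exact ⟨L + 1, by omega, by push_cast; linarith⟩
  have hL0 : (0 : ℝ) < L := by exact_mod_cast hL
  refine ⟨1 / (11 * (L : ℝ)), by positivity, fun z hz K => ?_⟩
  by_contra hcon
  push Not at hcon
  have hD : 0 ≤ D := le_trans (norm_nonneg _) (hz.2.2 0)
  obtain ⟨K', hK'⟩ := exists_nat_ge K
  obtain ⟨N, hN⟩ := UNI.escape hz (K' : ℤ)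
  have hreg : ∀ n, |((z (n + N)).im : ℝ)| ≤
      1 / (11 * (L : ℝ)) * √(Real.log (2 + |((z (n + N)).re : ℝ)|)) := by
    intro n
    refine hcon (n + N) ?_
    by_contra hle
    push Not at hle
    refine hN (n + N) (by omega) ⟨?_, ?_⟩
    · have h1 := Complex.abs_re_le_norm (GaussianInt.toComplex (z (n + N)))
      rw [← GaussianInt.intCast_re] at h1
      have h2 : |((z (n + N)).re : ℝ)| ≤ (K' : ℝ) := by linarith
      exact_mod_cast h2
    · have h1 := Complex.abs_im_le_norm (GaussianInt.toComplex (z (n + N)))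
      rw [← GaussianInt.intCast_im] at h1
      have h2 : |((z (n + N)).im : ℝ)| ≤ (K' : ℝ) := by linarith
      exact_mod_cast h2
  set w : ℕ := (z N).re.natAbs + 1 with hw
  obtain ⟨a, ha1, ha2, hblk⟩ := hB L w hL (by omega) (2 ^ (99 * L ^ 2 * w ^ 2)) le_rfl
  have hpow : (z N).re.natAbs < 2 ^ (99 * L ^ 2 * w ^ 2) := by
    have h1 : w ≤ 99 * L ^ 2 * w ^ 2 := by
      have h2 : 1 ≤ L ^ 2 := Nat.one_le_pow _ _ hL
      have h3 : w ≤ w ^ 2 := by nlinarith [Nat.succ_le_of_lt (Nat.succ_pos (z N).re.natAbs)]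
      nlinarith
    have h4 : w < 2 ^ w := Nat.lt_two_pow_self
    have h5 : 2 ^ w ≤ 2 ^ (99 * L ^ 2 * w ^ 2) := Nat.pow_le_pow_right (by norm_num) h1
    omega
  have key : ∀ n, |(z (n + N)).re| < (a : ℤ) := by
    intro n
    induction n with
    | zero =>
      rw [zero_add]
      have : |(z N).re| = ((z N).re.natAbs : ℤ) := Int.abs_eq_natAbs _
      rw [this]
      exact_mod_cast hpow.trans_le ha1
    | succ n ih =>
      by_contra hge
      push Not at hge
      have hstep := hz.2.2 (n + N)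
      rw [show n + N + 1 = n + 1 + N by ring] at hstep
      have h1 := FIN.sq_le_of_norm hstep
      have h2 : |((z (n + N)).re : ℝ) - (z (n + 1 + N)).re| ≤ D :=
        abs_le_of_sq_le_sq (by nlinarith [sq_nonneg (((z (n + N)).im : ℝ) -
          (z (n + 1 + N)).im)]) hD
      have h3 : |(z (n + N)).re - (z (n + 1 + N)).re| < (L : ℤ) := by
        have : |((z (n + N)).re : ℝ) - (z (n + 1 + N)).re| < (L : ℝ) := by linarith
        exact_mod_cast this
      have h4 : |(z (n + 1 + N)).re| < (a : ℤ) + L := by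
        rw [abs_lt] at h3 ih ⊢
        constructor <;> linarith [h3.1, h3.2, ih.1, ih.2]
      have h5 : |((z (n + 1 + N)).re : ℝ)| ≤ 2 * (2 : ℝ) ^ (99 * L ^ 2 * w ^ 2) + L := by
        have h6 : |((z (n + 1 + N)).re : ℝ)| < (a : ℝ) + L := by exact_mod_cast h4
        have h7 : (a : ℝ) < 2 * (2 : ℝ) ^ (99 * L ^ 2 * w ^ 2) := by exact_mod_cast ha2
        linarith
      have h8 := (hreg (n + 1)).trans (region_bound hL (by omega : 1 ≤ w) h5)
      have h9 : |(z (n + 1 + N)).im| ≤ (w : ℤ) := by exact_mod_cast h8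
      have hirr := hz.2.1 (n + 1 + N)
      rcases abs_cases (z (n + 1 + N)).re with ⟨hc, -⟩ | ⟨hc, -⟩
      · refine hblk ((z (n + 1 + N)).re - a) (z (n + 1 + N)).im (by linarith) (by linarith)
          h9 ?_
        have e : (⟨a + ((z (n + 1 + N)).re - a), (z (n + 1 + N)).im⟩ : GaussianInt) =
            z (n + 1 + N) := by
          rw [Zsqrtd.ext_iff]
          constructor <;> simp
        rw [e]
        exact hirr
      · refine hblk (-(z (n + 1 + N)).re - a) (-(z (n + 1 + N)).im) (by linarith) (by linarith)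
          (by rwa [abs_neg]) ?_
        have e : (⟨a + (-(z (n + 1 + N)).re - a), -(z (n + 1 + N)).im⟩ : GaussianInt) =
            -z (n + 1 + N) := by
          rw [Zsqrtd.ext_iff]
          constructor <;> simp
        rw [e]
        have h10 := (irreducible_units_mul (-1 : GaussianIntˣ)).mpr hirr
        rwa [Units.val_neg, Units.val_one, neg_one_mul] at h10
  have hmem : ∀ n, z (n + N) ∈ {v : GaussianInt | |v.re| ≤ (a + w : ℤ) ∧ |v.im| ≤ (a + w : ℤ)} := by
    intro n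
    have h1 := key n
    have h5 : |((z (n + N)).re : ℝ)| ≤ 2 * (2 : ℝ) ^ (99 * L ^ 2 * w ^ 2) + L := by
      have h6 : |((z (n + N)).re : ℝ)| < (a : ℝ) := by exact_mod_cast h1
      have h7 : (a : ℝ) < 2 * (2 : ℝ) ^ (99 * L ^ 2 * w ^ 2) := by exact_mod_cast ha2
      linarith
    have h8 := (hreg n).trans (region_bound hL (by omega : 1 ≤ w) h5)
    have h9 : |(z (n + N)).im| ≤ (w : ℤ) := by exact_mod_cast h8
    refine ⟨by linarith [h1, Int.natCast_nonneg w], by linarith [Int.natCast_nonneg a]⟩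
  refine Set.infinite_of_injective_forall_mem (f := fun n => z (n + N)) (fun i j h => ?_) hmem
    (FIN.finite_box _)
  have := hz.1 h
  omega

end Vale.P015.REG
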