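import Mathlib

/-! P015: SIZ, the size of the modulus. -/

namespace Vale.P015.SIZ

theorem thm (L w : ℕ) (hL : 1 ≤ L) (hw : 1 ≤ w) (J : ℕ) (hJ : J = L * (2 * w + 1)) :
    (∏ j ∈ Finset.range J, (((j + 1) * primorial (2 * J)) ^ 2 + 1)) ≤
      2 ^ (99 * L ^ 2 * w ^ 2) := by
  have hJ1 : 1 ≤ J := by
    rw [hJ]
    exact Nat.one_le_iff_ne_zero.2 (Nat.mul_ne_zero (by omega) (by omega))
  have hM : primorial (2 * J) ≤ 2 ^ (4 * J) := by
    refine (primorial_le_four_pow (2 * J)).trans (le_of_eq ?_)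
    rw [show (4 : ℕ) = 2 ^ 2 from rfl, ← pow_mul]
    congr 1
    ring
  have hJ2 : J ≤ 2 ^ J := Nat.lt_two_pow_self.le
  have hf : ∀ j ∈ Finset.range J, ((j + 1) * primorial (2 * J)) ^ 2 + 1 ≤ 2 ^ (11 * J) := by
    intro j hj
    have h1 : j + 1 ≤ 2 ^ J := le_trans (Finset.mem_range.1 hj) hJ2
    have h2 : (j + 1) * primorial (2 * J) ≤ 2 ^ (5 * J) := by
      calc (j + 1) * primorial (2 * J) ≤ 2 ^ J * 2 ^ (4 * J) := Nat.mul_le_mul h1 hM
        _ = 2 ^ (5 * J) := by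
          rw [← pow_add]
          congr 1
          ring
    have h3 : ((j + 1) * primorial (2 * J)) ^ 2 ≤ 2 ^ (10 * J) := by
      calc ((j + 1) * primorial (2 * J)) ^ 2 ≤ (2 ^ (5 * J)) ^ 2 := Nat.pow_le_pow_left h2 2
        _ = 2 ^ (10 * J) := by
          rw [← pow_mul]
          congr 1
          ring
    have h4 : 1 ≤ 2 ^ (10 * J) := Nat.one_le_two_pow
    have h5 : 2 ^ (10 * J) + 2 ^ (10 * J) = 2 ^ (10 * J + 1) := by
      rw [pow_succ]
      ring
    calc ((j + 1) * primorial (2 * J)) ^ 2 + 1 ≤ 2 ^ (10 * J) + 2 ^ (10 * J) :=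
          Nat.add_le_add h3 h4
      _ = 2 ^ (10 * J + 1) := h5
      _ ≤ 2 ^ (11 * J) := Nat.pow_le_pow_right (by norm_num) (by omega)
  calc (∏ j ∈ Finset.range J, (((j + 1) * primorial (2 * J)) ^ 2 + 1))
      ≤ ∏ _j ∈ Finset.range J, 2 ^ (11 * J) := Finset.prod_le_prod' hf
    _ = 2 ^ (11 * J * J) := by
        rw [Finset.prod_const, Finset.card_range, ← pow_mul]
    _ ≤ 2 ^ (99 * L ^ 2 * w ^ 2) := by
        refine Nat.pow_le_pow_right (by norm_num) ?_
        have h6 : J ≤ 3 * L * w := by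
          rw [hJ]
          have h7 : 2 * w + 1 ≤ 3 * w := by omega
          calc L * (2 * w + 1) ≤ L * (3 * w) := Nat.mul_le_mul_left _ h7
            _ = 3 * L * w := by ring
        calc 11 * J * J = 11 * (J * J) := by ring
          _ ≤ 11 * ((3 * L * w) * (3 * L * w)) :=
              Nat.mul_le_mul_left _ (Nat.mul_le_mul h6 h6)
          _ = 99 * L ^ 2 * w ^ 2 := by ring

end Vale.P015.SIZ
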